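import Vale.Agent.P042.R2.H886.Numeric

set_option autoImplicit false

/-!
P042: sets with few different sections after each prefix of digits (local branching), relative form.
-/

namespace Vale.Agent.P042.H886

open Polynomial Filter Finset

/-- No two elements differ by `a * n ^ k` with `n ≥ 1`. -/
def PFree (a k : ℕ) (A : Finset ℕ) : Prop := ∀ x ∈ A, ∀ n : ℕ, 1 ≤ n → x + a * n ^ k ∉ A

/-- The number of different sections of `A` after the prefix `p < s ^ i`. -/
noncomputable def branch (s : ℕ) (A : Finset ℕ) (i p : ℕ) : ℕ :=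
  (Set.range fun x : Fin s => {y : ℕ | p + s ^ i * (x + s * y) ∈ A}).ncard

/-- The section of `A` after the lowest digit `x`. -/
def sect (s T : ℕ) (A : Finset ℕ) (x : ℕ) : Finset ℕ :=
  (range (s ^ T)).filter fun y => x + s * y ∈ A

theorem mem_sect {s T : ℕ} {A : Finset ℕ} (hA : A ⊆ range (s ^ (T + 1))) {x y : ℕ} (hs : 0 < s) :
    y ∈ sect s T A x ↔ x + s * y ∈ A := by
  rw [sect, mem_filter, mem_range]
  refine ⟨fun h => h.2, fun h => ⟨?_, h⟩⟩
  have h1 := mem_range.1 (hA h)
  rw [pow_succ] at h1
  by_contra hcon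
  have h2 : s ^ T * s ≤ y * s := Nat.mul_le_mul_right s (not_lt.1 hcon)
  have h3 : y * s = s * y := mul_comm _ _
  omega

theorem card_eq_sum_sect {s T : ℕ} (hs : 0 < s) (A : Finset ℕ) (hA : A ⊆ range (s ^ (T + 1))) :
    A.card = ∑ x ∈ range s, (sect s T A x).card := by
  rw [Finset.card_eq_sum_card_fiberwise (f := fun n => n % s) (t := range s)
    (fun n _ => Finset.mem_coe.2 (mem_range.2 (Nat.mod_lt n hs)))]
  refine Finset.sum_congr rfl fun x hx => ?_
  have hinj : Function.Injective fun y => x + s * y := by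
    intro y y' h
    have h1 : x + s * y = x + s * y' := h
    exact Nat.eq_of_mul_eq_mul_left hs (by omega)
  rw [← Finset.card_image_of_injective (sect s T A x) hinj]
  congr 1
  ext n
  rw [mem_filter, mem_image]
  constructor
  · rintro ⟨hn, hx'⟩
    have h1 := Nat.mod_add_div n s
    refine ⟨n / s, ?_, by rw [← hx']; exact h1⟩
    rw [mem_sect hA hs, ← hx']
    have h2 : n % s + s * (n / s) = n := h1
    rw [h2]
    exact hn
  · rintro ⟨y, hy, rfl⟩
    rw [mem_sect hA hs] at hy
    refine ⟨hy, ?_⟩
    rw [Nat.add_mul_mod_self_left, Nat.mod_eq_of_lt (mem_range.1 hx)]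

theorem sect_sub {s T : ℕ} {A A' : Finset ℕ} (h : A' ⊆ A) (x : ℕ) :
    sect s T A' x ⊆ sect s T A x := by
  intro y hy
  rw [sect, mem_filter] at hy ⊢
  exact ⟨hy.1, h hy.2⟩

theorem sect_range (s T : ℕ) (A : Finset ℕ) (x : ℕ) : sect s T A x ⊆ range (s ^ T) :=
  filter_subset _ _

theorem branch_sect {s T : ℕ} {A : Finset ℕ} (hA : A ⊆ range (s ^ (T + 1))) (hs : 0 < s)
    (x i p : ℕ) : branch s (sect s T A x) i p = branch s A (i + 1) (x + s * p) := by
  unfold branch
  congr 2
  funext z
  ext y
  rw [Set.mem_ofPred_eq, Set.mem_ofPred_eq, mem_sect hA hs]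
  have : x + s * (p + s ^ i * (z + s * y)) = x + s * p + s ^ (i + 1) * (z + s * y) := by
    rw [pow_succ]; ring
  rw [this]

theorem pfree_sect {a k m T : ℕ} (hm : 1 ≤ m) {A : Finset ℕ} (hA : A ⊆ range ((m ^ k) ^ (T + 1)))
    (hf : PFree a k A) (x : ℕ) : PFree a k (sect (m ^ k) T A x) := by
  have hs : 0 < m ^ k := Nat.pow_pos hm
  intro y hy n hn hy'
  rw [mem_sect hA hs] at hy hy'
  refine hf _ hy (m * n) (Nat.mul_pos hm hn) ?_
  have : x + m ^ k * (y + a * n ^ k) = x + m ^ k * y + a * (m * n) ^ k := by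
    rw [mul_pow]; ring
  rwa [this] at hy'

/-- One class of digits. -/
theorem class_bound {s T r : ℕ} (A' : Finset ℕ) (κ V : Finset ℕ) (ε : ℝ)
    (hV : ∀ x ∈ κ, sect s T A' x ⊆ V)
    (hr : ∀ y ∈ V, (κ.filter fun x => y ∈ sect s T A' x).card ≤ r)
    (hbig : (r : ℝ) ≤ ε * κ.card) :
    ((∑ x ∈ κ, (sect s T A' x).card : ℕ) : ℝ) ≤ ε * ((κ.card * V.card : ℕ) : ℝ) := by
  classical
  have h1 : ∑ x ∈ κ, (sect s T A' x).card = ∑ y ∈ V, (κ.filter fun x => y ∈ sect s T A' x).card := by
    have h2 : ∀ x ∈ κ, (sect s T A' x).card = (V.filter fun y => y ∈ sect s T A' x).card := by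
      intro x hx
      congr 1
      ext y
      rw [mem_filter]
      exact ⟨fun h => ⟨hV x hx h, h⟩, fun h => h.2⟩
    rw [Finset.sum_congr rfl h2]
    exact Finset.sum_card_bipartiteAbove_eq_sum_card_bipartiteBelow _
  rw [h1]
  calc ((∑ y ∈ V, (κ.filter fun x => y ∈ sect s T A' x).card : ℕ) : ℝ)
      ≤ ((∑ _y ∈ V, r : ℕ) : ℝ) := by exact_mod_cast Finset.sum_le_sum hr
    _ = V.card * (r : ℝ) := by rw [Finset.sum_const, smul_eq_mul]; push_cast; ring
    _ ≤ V.card * (ε * κ.card) := mul_le_mul_of_nonneg_left hbig (Nat.cast_nonneg _)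
    _ = ε * ((κ.card * V.card : ℕ) : ℝ) := by push_cast; ring

/-- **Branching lemma**, relative form. -/
theorem branch_lemma (a k m : ℕ) (hm : 1 ≤ m) (r : ℕ)
    (hr : ∀ τ : Finset ℕ, τ ⊆ range (m ^ k) → PFree a k τ → τ.card ≤ r) (ε : ℝ) (hε : 0 < ε) :
    ∀ (T : ℕ) (β : ℕ → ℝ) (A A' : Finset ℕ), A ⊆ range ((m ^ k) ^ T) → A' ⊆ A → PFree a k A' →
      (∀ i < T, ∀ p < (m ^ k) ^ i,
        min ((m ^ k : ℕ) : ℝ) (branch (m ^ k) A i p * (r / ε)) ≤ β i) →
      (A'.card : ℝ) ≤ ε * A.card + ∏ i ∈ range T, β i := by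
  classical
  intro T
  have hs : 0 < m ^ k := Nat.pow_pos hm
  induction T with
  | zero =>
    intro β A A' hA hsub _ _
    have h1 : A'.card ≤ 1 := by
      have := card_le_card (hsub.trans hA)
      simpa using this
    have h2 : (A'.card : ℝ) ≤ 1 := by exact_mod_cast h1
    have h3 : 0 ≤ ε * A.card := by positivity
    rw [range_zero, prod_empty]
    linarith
  | succ T ih =>
    intro β A A' hA hsub hfree hβ
    set s := m ^ k with hsdef
    have hA' : A' ⊆ range (s ^ (T + 1)) := hsub.trans hA
    set P : ℝ := ∏ i ∈ range T, β (i + 1) with hP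
    have hβ0 : ∀ i < T + 1, 0 ≤ β i := fun i hi =>
      le_trans (le_min (Nat.cast_nonneg _) (by positivity)) (hβ i hi 0 (Nat.pow_pos hs))
    have hP0 : 0 ≤ P := Finset.prod_nonneg fun i hi => hβ0 _ (by
      have := mem_range.1 hi; omega)
    -- the induction hypothesis for one digit
    have hone : ∀ x ∈ range s, ((sect s T A' x).card : ℝ) ≤ ε * (sect s T A x).card + P := by
      intro x hx
      refine ih (fun i => β (i + 1)) (sect s T A x) (sect s T A' x) (sect_range _ _ _ _)
        (sect_sub hsub x) (pfree_sect hm hA' hfree x) ?_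
      intro i hi p hp
      rw [branch_sect hA hs]
      refine hβ (i + 1) (by omega) _ ?_
      rw [pow_succ]
      have h1 := mem_range.1 hx
      calc x + s * p < s + s * p := by omega
        _ = s * (p + 1) := by ring
        _ ≤ s * s ^ i := Nat.mul_le_mul_left _ hp
        _ = s ^ i * s := mul_comm _ _
    set cls : ℕ → Finset ℕ := fun x => (range s).filter fun x' => sect s T A x' = sect s T A x
      with hcls
    set Lg : Finset ℕ := (range s).filter fun x => ¬ ((cls x).card : ℝ) ≤ r / ε with hLg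
    set Sm : Finset ℕ := (range s).filter fun x => ((cls x).card : ℝ) ≤ r / ε with hSm
    have mcls : ∀ x x' : ℕ, x' ∈ cls x ↔ x' ∈ range s ∧ sect s T A x' = sect s T A x :=
      fun x x' => mem_filter
    have mLg : ∀ x : ℕ, x ∈ Lg ↔ x ∈ range s ∧ ¬ ((cls x).card : ℝ) ≤ r / ε :=
      fun x => mem_filter
    have mSm : ∀ x : ℕ, x ∈ Sm ↔ x ∈ range s ∧ ((cls x).card : ℝ) ≤ r / ε :=
      fun x => mem_filter
    have hsum : ∀ B : Finset ℕ, B ⊆ range (s ^ (T + 1)) → (B.card : ℝ) =
        ∑ x ∈ Sm, ((sect s T B x).card : ℝ) + ∑ x ∈ Lg, ((sect s T B x).card : ℝ) := by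
      intro B hB
      rw [hSm, hLg, Finset.sum_filter_add_sum_filter_not, card_eq_sum_sect hs B hB]
      push_cast
      rfl
    -- the large classes
    have hlarge : ∑ x ∈ Lg, ((sect s T A' x).card : ℝ) ≤
        ε * ∑ x ∈ Lg, ((sect s T A x).card : ℝ) := by
      rw [← Finset.sum_fiberwise_of_maps_to (t := Lg.image (sect s T A)) (g := sect s T A)
        (fun x hx => Finset.mem_image_of_mem _ hx) (fun x => ((sect s T A' x).card : ℝ)),
        ← Finset.sum_fiberwise_of_maps_to (t := Lg.image (sect s T A)) (g := sect s T A)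
        (fun x hx => Finset.mem_image_of_mem _ hx) (fun x => ((sect s T A x).card : ℝ)),
        Finset.mul_sum]
      refine Finset.sum_le_sum fun V hV => ?_
      obtain ⟨x₀, hx₀, rfl⟩ := Finset.mem_image.1 hV
      have hx₀' := (mLg x₀).1 hx₀
      -- the fibre is the whole class
      have hfib : (Lg.filter fun x => sect s T A x = sect s T A x₀) = cls x₀ := by
        ext x
        rw [mcls]
        constructor
        · intro h
          obtain ⟨h1, h2⟩ := mem_filter.1 h
          exact ⟨((mLg x).1 h1).1, h2⟩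
        · rintro ⟨h1, h2⟩
          have h3 : cls x = cls x₀ := by
            ext z
            rw [mcls, mcls, h2]
          refine mem_filter.2 ⟨(mLg x).2 ⟨h1, ?_⟩, h2⟩
          rw [h3]
          exact hx₀'.2
      rw [hfib]
      have e1 : ∑ x ∈ cls x₀, ((sect s T A x).card : ℝ) =
          (((cls x₀).card * (sect s T A x₀).card : ℕ) : ℝ) := by
        rw [Finset.sum_congr rfl (g := fun _ => ((sect s T A x₀).card : ℝ)), Finset.sum_const,
          nsmul_eq_mul]
        · push_cast; ring
        · intro x hx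
          rw [((mcls _ _).1 hx).2]
      rw [e1]
      have h5 := class_bound (s := s) (T := T) (r := r) A' (cls x₀) (sect s T A x₀) ε ?_ ?_ ?_
      · refine le_trans (le_of_eq ?_) h5
        push_cast
        rfl
      · intro x hx
        rw [← ((mcls _ _).1 hx).2]
        exact sect_sub hsub x
      · intro y hy
        refine hr _ ?_ ?_
        · intro x hx
          exact ((mcls _ _).1 (mem_filter.1 hx).1).1
        · intro x hx n hn hx'
          have h6 := (mem_sect hA' hs).1 (mem_filter.1 hx).2
          have h7 := (mem_sect hA' hs).1 (mem_filter.1 hx').2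
          refine hfree _ h6 n hn ?_
          have : x + s * y + a * n ^ k = x + a * n ^ k + s * y := by ring
          rw [this]
          exact h7
      · have h8 := (not_le.1 hx₀'.2).le
        rw [div_le_iff₀ hε] at h8
        linarith
    -- the small classes
    have hsmallcard : (Sm.card : ℝ) ≤ β 0 := by
      refine le_trans (le_min ?_ ?_) (hβ 0 (by omega) 0 (by simp))
      · have : Sm.card ≤ s := by
          have := card_le_card (filter_subset (fun x => ((cls x).card : ℝ) ≤ r / ε) (range s))
          rwa [card_range] at this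
        exact_mod_cast this
      · -- via the abstract lemma
        have h9 := good_card' (D := Fin s) (fun x : Fin s => {y : ℕ | 0 + s ^ 0 * (x + s * y) ∈ A})
          (branch s A 0 0) (r / ε) (by positivity) (le_refl _)
        refine le_trans ?_ h9
        have hiff : ∀ x x' : ℕ, sect s T A x' = sect s T A x ↔
            {y : ℕ | 0 + s ^ 0 * (x' + s * y) ∈ A} = {y : ℕ | 0 + s ^ 0 * (x + s * y) ∈ A} := by
          intro x x'
          constructor
          · intro h
            ext y
            rw [Set.mem_ofPred_eq, Set.mem_ofPred_eq, pow_zero, one_mul, one_mul, zero_add,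
              zero_add, ← mem_sect hA hs, ← mem_sect hA hs, h]
          · intro h
            ext y
            rw [mem_sect hA hs, mem_sect hA hs]
            have := Set.ext_iff.1 h y
            rwa [Set.mem_ofPred_eq, Set.mem_ofPred_eq, pow_zero, one_mul, one_mul, zero_add,
              zero_add] at this
        have hcc : ∀ x : Fin s, (cls x).card = {d' : Fin s |
            {y : ℕ | 0 + s ^ 0 * ((d' : ℕ) + s * y) ∈ A} =
              {y : ℕ | 0 + s ^ 0 * ((x : ℕ) + s * y) ∈ A}}.ncard := by
          intro x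
          rw [← Set.ncard_image_of_injective _ Fin.val_injective, ← Set.ncard_coe_finset]
          congr 1
          ext z
          rw [Finset.mem_coe, mcls, mem_range, Set.mem_image]
          constructor
          · rintro ⟨h1, h2⟩
            exact ⟨⟨z, h1⟩, (hiff _ _).1 h2, rfl⟩
          · rintro ⟨d, h1, rfl⟩
            exact ⟨d.2, (hiff _ _).2 h1⟩
        have h10 : Sm.card = {d : Fin s | (({d' : Fin s |
            {y : ℕ | 0 + s ^ 0 * ((d' : ℕ) + s * y) ∈ A} =
              {y : ℕ | 0 + s ^ 0 * ((d : ℕ) + s * y) ∈ A}}.ncard : ℕ) : ℝ) ≤ r / ε}.ncard := by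
          rw [← Set.ncard_image_of_injective _ Fin.val_injective, ← Set.ncard_coe_finset]
          congr 1
          ext z
          rw [Finset.mem_coe, mSm, mem_range, Set.mem_image]
          constructor
          · rintro ⟨h1, h2⟩
            refine ⟨⟨z, h1⟩, ?_, rfl⟩
            rw [Set.mem_ofPred_eq, ← hcc ⟨z, h1⟩]
            exact h2
          · rintro ⟨d, h1, rfl⟩
            rw [Set.mem_ofPred_eq, ← hcc d] at h1
            exact ⟨d.2, h1⟩
        rw [h10]
    have hsmall : ∑ x ∈ Sm, ((sect s T A' x).card : ℝ) ≤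
        ε * ∑ x ∈ Sm, ((sect s T A x).card : ℝ) + β 0 * P := by
      calc ∑ x ∈ Sm, ((sect s T A' x).card : ℝ)
          ≤ ∑ x ∈ Sm, (ε * ((sect s T A x).card : ℝ) + P) :=
            Finset.sum_le_sum fun x hx => hone x (filter_subset _ _ hx)
        _ = ε * ∑ x ∈ Sm, ((sect s T A x).card : ℝ) + Sm.card * P := by
            rw [Finset.sum_add_distrib, ← Finset.mul_sum, Finset.sum_const, nsmul_eq_mul]
        _ ≤ _ := by
            have := mul_le_mul_of_nonneg_right hsmallcard hP0
            linarith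
    have h11 := hsum A hA
    have h12 := hsum A' hA'
    have h13 : ∏ i ∈ range (T + 1), β i = β 0 * P := by
      rw [Finset.prod_range_succ', mul_comm]
    rw [h12, h11, h13]
    linarith

end Vale.Agent.P042.H886
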