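import Vale.Agent.P042.R2.H886.Branch

set_option autoImplicit false

/-!
P042: power saving from small local branching, relative form.
-/

namespace Vale.Agent.P042.H886

open Polynomial Filter Finset

theorem pfree_card {a k N : ℕ} {τ : Finset ℕ} (hτ : τ ⊆ range N) (hf : PFree a k τ) :
    τ.card ≤ rMax (C (a : ℤ) * X ^ k : ℤ[X]) N := by
  classical
  have hinj : Function.Injective (fun d : ℕ => (d : ℤ) + 1) := by
    intro d d' hdd
    have : (d : ℤ) + 1 = (d' : ℤ) + 1 := hdd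
    omega
  rw [← Finset.card_image_of_injective τ hinj]
  apply card_le_rMax
  · intro n hn
    rw [Finset.mem_image] at hn
    obtain ⟨d, hd, rfl⟩ := hn
    have := mem_range.1 (hτ hd)
    rw [Finset.mem_Icc]
    omega
  · rintro n ⟨⟨u, hu, v, hv, rfl⟩, t, ht, hte⟩
    rw [Finset.mem_coe, Finset.mem_image] at hu hv
    obtain ⟨d, hd, rfl⟩ := hu
    obtain ⟨d', hd', rfl⟩ := hv
    rw [eval_monomial'] at hte
    exfalso
    refine hf d' hd' t ht ?_
    have h1 : (d : ℤ) = ((d' + a * t ^ k : ℕ) : ℤ) := by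
      push_cast
      have : (a : ℤ) * (t : ℤ) ^ k = ((d : ℤ) + 1) - ((d' : ℤ) + 1) := hte
      linarith
    have h2 : d = d' + a * t ^ k := by exact_mod_cast h1
    rw [← h2]
    exact hd

/-- **Power saving from small local branching.** -/
theorem branch_saving {a k : ℕ} (ha : 1 ≤ a) (hk : 2 ≤ k) (κ : ℝ) (hκ : κ < 1) (ε : ℝ)
    (hε : 0 < ε) :
    ∃ m₀ : ℕ, ∀ m : ℕ, m₀ ≤ m → ∀ (T : ℕ) (A A' J : Finset ℕ),
      A ⊆ range ((m ^ k) ^ T) → A' ⊆ A → PFree a k A' → J ⊆ range T →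
      (∀ i ∈ J, ∀ p < (m ^ k) ^ i,
        (branch (m ^ k) A i p : ℝ) ≤ Real.exp ((Real.log ((m ^ k : ℕ) : ℝ)) ^ κ)) →
      (A'.card : ℝ) ≤ ε * A.card + ((m ^ k : ℕ) : ℝ) ^ T *
        Real.exp (-(J.card * (Real.log ((m ^ k : ℕ) : ℝ)) ^ κ)) := by
  classical
  obtain ⟨c, hc, t₀, ht₀⟩ := two_rpow hκ
  obtain ⟨N₀, hN₀⟩ := rMax_small (a := (a : ℤ)) (by exact_mod_cast ha) hk c hc ε hε
  have hlog := Real.tendsto_log_atTop.comp tendsto_natCast_atTop_atTop
  obtain ⟨N₁, hN₁⟩ := Filter.eventually_atTop.1 (hlog.eventually_ge_atTop t₀)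
  refine ⟨max N₀ N₁ + 1, fun m hm T A A' J hA hsub hfree hJT hJ => ?_⟩
  have hmk : m ≤ m ^ k := Nat.le_self_pow (by omega) m
  have hm1 : 1 ≤ m := by omega
  have hs0 : N₀ ≤ m ^ k := by
    have := le_max_left N₀ N₁
    omega
  have hs1 : N₁ ≤ m ^ k := by
    have := le_max_right N₀ N₁
    omega
  set s := m ^ k with hs
  set E : ℝ := Real.exp (-(Real.log (s : ℝ)) ^ κ) with hE
  have h2 := hN₀ s hs0
  have h3 := ht₀ (Real.log s) (hN₁ s hs1)
  set r : ℝ := (rMax (C (a : ℤ) * X ^ k : ℤ[X]) s : ℝ) with hr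
  have hr0 : 0 ≤ r := Nat.cast_nonneg _
  have h1 := branch_lemma a k m hm1 (rMax (C (a : ℤ) * X ^ k : ℤ[X]) s)
    (fun τ hτ hf => pfree_card hτ hf) ε hε T
    (fun i => (s : ℝ) * (if i ∈ J then E else 1)) A A' hA hsub hfree ?_
  · refine h1.trans (add_le_add le_rfl (le_of_eq ?_))
    rw [Finset.prod_mul_distrib, Finset.prod_const, card_range, Finset.prod_ite_mem,
      Finset.inter_eq_right.2 hJT, Finset.prod_const, hE, ← Real.exp_nat_mul]
    congr 2
    ring
  · intro i hi p hp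
    by_cases hiJ : i ∈ J
    · rw [if_pos hiJ]
      refine (min_le_right _ _).trans ?_
      have h4 : r * Real.exp ((Real.log (s : ℝ)) ^ κ * 2) ≤ ε * s :=
        (mul_le_mul_of_nonneg_left (Real.exp_le_exp.2 (by linarith)) hr0).trans h2
      have h5 : r * Real.exp ((Real.log (s : ℝ)) ^ κ) ≤ ε * (s * E) := by
        have h6 : Real.exp ((Real.log (s : ℝ)) ^ κ) =
            Real.exp ((Real.log (s : ℝ)) ^ κ * 2) * E := by
          rw [hE, ← Real.exp_add]; congr 1; ring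
        calc r * Real.exp ((Real.log (s : ℝ)) ^ κ)
            = (r * Real.exp ((Real.log (s : ℝ)) ^ κ * 2)) * E := by rw [h6]; ring
          _ ≤ (ε * s) * E := mul_le_mul_of_nonneg_right h4 (Real.exp_pos _).le
          _ = ε * (s * E) := by ring
      calc (branch s A i p : ℝ) * (r / ε)
          ≤ Real.exp ((Real.log (s : ℝ)) ^ κ) * (r / ε) :=
            mul_le_mul_of_nonneg_right (hJ i hiJ p hp) (by positivity)
        _ = (r * Real.exp ((Real.log (s : ℝ)) ^ κ)) / ε := by ring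
        _ ≤ s * E := by rw [div_le_iff₀ hε]; linarith
    · rw [if_neg hiJ, mul_one]
      exact min_le_left _ _

end Vale.Agent.P042.H886
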