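import Vale.Agent.P042.R2.H886.Main
import Vale.Agent.P042.R2.H546.Count
import Vale.Agent.P057.R3.H567.Aut

set_option autoImplicit false

/-!
P042, digit statistics: the power saving, uniformly in all automata with `s` states.
-/

namespace Vale.Agent.P042.H886

open Vale.Agent.P057.H380 Polynomial Pointwise

/-- Two words are equivalent when both automata cannot tell them apart (the second one reads
backwards). -/
def rel {Q B Q' B' : Type} [AddCommMonoid B] [AddCommMonoid B']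
    (δ : Q → ℕ → Q × B) (δ' : Q' → ℕ → Q' × B') (u v : List ℕ) : Prop :=
  (∀ q, run δ q u = run δ q v) ∧ (∀ q', run δ' q' u.reverse = run δ' q' v.reverse)

theorem rel_cong {Q B Q' B' : Type} [AddCommMonoid B] [AddCommMonoid B']
    (δ : Q → ℕ → Q × B) (δ' : Q' → ℕ → Q' × B') : Cong (rel δ δ') where
  eqv := ⟨fun _ => ⟨fun _ => rfl, fun _ => rfl⟩,
    fun h => ⟨fun q => (h.1 q).symm, fun q => (h.2 q).symm⟩,
    fun h h' => ⟨fun q => (h.1 q).trans (h'.1 q), fun q => (h.2 q).trans (h'.2 q)⟩⟩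
  app := by
    intro u u' v v' h h'
    refine ⟨fun q => ?_, fun q => ?_⟩
    · rw [Vale.Agent.P057.H567.run_append, Vale.Agent.P057.H567.run_append, h.1 q, h'.1]
    · rw [List.reverse_append, List.reverse_append, Vale.Agent.P057.H567.run_append,
        Vale.Agent.P057.H567.run_append, h'.2 q, h.2]

theorem pw_reverse (e : List ℕ) (N : ℕ) (u : List ℕ) :
    (pw e N u).reverse = pw e.reverse N u.reverse := by
  unfold pw
  rw [List.reverse_flatten, List.map_replicate, List.reverse_replicate]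
  simp [List.reverse_append, List.append_assoc]

theorem dig_reverse {b : ℕ} {u : List ℕ} (hu : Dig b u) : Dig b u.reverse :=
  fun d hd => hu d (List.mem_reverse.1 hd)

/-- One word `e` and one exponent for which all blocks commute for both automata. -/
theorem exists_comm {Q B Q' B' : Type} [Finite Q] [Finite Q'] [AddCommMonoid B]
    [AddCommMonoid B'] (δ : Q → ℕ → Q × B) (δ' : Q' → ℕ → Q' × B') (b : ℕ) :
    ∃ (e : List ℕ) (N : ℕ), Dig b e ∧ 1 ≤ N ∧ ∀ u v : List ℕ, Dig b u → Dig b v →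
      rel δ δ' (pw e N u ++ pw e N v) (pw e N v ++ pw e N u) := by
  obtain ⟨e1, he1, h1⟩ := Vale.Agent.P057.H567.aut_comm δ b
  obtain ⟨e2, he2, h2⟩ := Vale.Agent.P057.H567.aut_comm δ' b
  have hQ : 0 < (Nat.card Q).factorial := Nat.factorial_pos _
  have hQ' : 0 < (Nat.card Q').factorial := Nat.factorial_pos _
  refine ⟨e1 ++ e2.reverse, (Nat.card Q).factorial * (Nat.card Q').factorial,
    he1.append (dig_reverse he2), Nat.mul_pos hQ hQ', fun u v hu hv => ?_⟩
  refine ⟨fun s => h1 e2.reverse u v (dig_reverse he2) hu hv _ hQ' s, fun s => ?_⟩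
  have h3 := h2 e1.reverse v.reverse u.reverse (dig_reverse he1) (dig_reverse hv)
    (dig_reverse hu) _ hQ s
  rw [List.reverse_append, List.reverse_append, pw_reverse, pw_reverse, List.reverse_append,
    List.reverse_reverse, mul_comm (Nat.card Q).factorial (Nat.card Q').factorial]
  exact h3

/-- The automaton with moves `τ` which writes down all its moves. -/
noncomputable def tape {Q : Type} (τ : Q → ℕ → Q) : Q → ℕ → Q × ((Q × ℕ) →₀ ℕ) :=
  fun q d => (τ q d, Finsupp.single (q, d) 1)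

theorem run_tape {Q B : Type} [AddCommMonoid B] {b : ℕ} (τ : Q → ℕ → Q) (δ : Q → ℕ → Q × B)
    (hδ : ∀ q d, d < b → (δ q d).1 = τ q d) (w : List ℕ) (hw : Dig b w) (q : Q) :
    run δ q w = ((run (tape τ) q w).1,
      Finsupp.liftAddHom (fun p : Q × ℕ => multiplesHom B (δ p.1 p.2).2)
        (run (tape τ) q w).2) := by
  induction w generalizing q with
  | nil => simp [run]
  | cons d w ih =>
    have hd : d < b := hw d (by simp)
    have hw' : Dig b w := fun x hx => hw x (by simp [hx])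
    have h1 := ih hw' (τ q d)
    simp only [run, tape, map_add, Finsupp.liftAddHom_apply_single, multiplesHom_apply, one_smul,
      hδ q d hd]
    rw [h1]

/-- The power saving for one pair of move tables. -/
theorem saving_of_moves (h : ℤ[X]) (hd : 1 ≤ h.natDegree) (z : ℤ) (hz : h.eval z = 0) {b : ℕ}
    (hb : 2 ≤ b) {Q Q' : Type} [Finite Q] [Finite Q'] (τ : Q → ℕ → Q) (τ' : Q' → ℕ → Q') :
    ∃ θ C : ℝ, 0 < θ ∧ θ < 1 ∧ 0 < C ∧
      ∀ (B B' : Type) [AddCommMonoid B] [AddCommMonoid B'] (δ : Q → ℕ → Q × B)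
        (δ' : Q' → ℕ → Q' × B'), (∀ q d, d < b → (δ q d).1 = τ q d) →
        (∀ q d, d < b → (δ' q d).1 = τ' q d) →
        ∀ (q : Q) (q' : Q') (S : Set ((Q × B) × (Q' × B'))) (N : ℕ) (A : Finset ℤ), 1 ≤ N →
          (∀ a : ℤ, a ∈ A ↔ 1 ≤ a ∧ a ≤ N ∧ (run δ q (Nat.digits b a.toNat),
            run δ' q' (Nat.digits b a.toNat).reverse) ∈ S) → DiffFree h A →
          (A.card : ℝ) ≤ C * (N : ℝ) ^ θ := by
  obtain ⟨e, N₀, he, hN₀, hc⟩ := exists_comm (tape τ) (tape τ') b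
  obtain ⟨β, v, hβ, hv, hpat⟩ := pattern h hd z hz hb (rel_cong (tape τ) (tape τ')) he hN₀ hc
  obtain ⟨θ, C, hθ0, hθ1, hC, hcount⟩ := Vale.Agent.P042.H546.count hβ hd hv
  refine ⟨θ, C, hθ0, hθ1, hC, ?_⟩
  intro B B' _ _ δ δ' hδ hδ' q q' S N A hN hA hfree
  set A' : Set ℕ := {n | (n : ℤ) ∈ A} with hA'
  have himg : (A : Set ℤ) = (fun n : ℕ => (n : ℤ)) '' A' := by
    ext a
    constructor
    · intro ha
      have h1 := (hA a).1 ha
      refine ⟨a.toNat, ?_, Int.toNat_of_nonneg (by omega)⟩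
      rw [hA', Set.mem_ofPred_eq, Int.toNat_of_nonneg (by omega)]
      exact ha
    · rintro ⟨n, hn, rfl⟩
      exact hn
  have hcard : A.card = A'.ncard := by
    rw [← Set.ncard_coe_finset, himg, Set.ncard_image_of_injective _ Nat.cast_injective]
  rw [hcard]
  have hmem : ∀ n : ℕ, n ∈ A' ↔ 1 ≤ n ∧ n ≤ N ∧ (run δ q (Nat.digits b n),
      run δ' q' (Nat.digits b n).reverse) ∈ S := by
    intro n
    rw [hA', Set.mem_ofPred_eq, hA, Int.toNat_natCast]
    constructor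
    · rintro ⟨h1, h2, h3⟩
      exact ⟨by omega, by omega, h3⟩
    · rintro ⟨h1, h2, h3⟩
      exact ⟨by omega, by omega, h3⟩
  refine hcount N A' hN (fun n hn => ⟨((hmem n).1 hn).1, ((hmem n).1 hn).2.1⟩) ?_
  intro y hy i P hi hP hlt
  refine hpat N A' ?_ ?_ y hy ((hmem y).1 hy).1 i P hi hP hlt
  · intro m n hm _ hn1 hnN hr
    rw [hmem] at hm ⊢
    refine ⟨hn1, hnN, ?_⟩
    have hdm : Dig b (Nat.digits b m) := fun d hd => Nat.digits_lt_base (by omega) hd
    have hdn : Dig b (Nat.digits b n) := fun d hd => Nat.digits_lt_base (by omega) hd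
    have e1 : run δ q (Nat.digits b n) = run δ q (Nat.digits b m) := by
      rw [run_tape τ δ hδ _ hdn, run_tape τ δ hδ _ hdm, hr.1 q]
    have e2 : run δ' q' (Nat.digits b n).reverse = run δ' q' (Nat.digits b m).reverse := by
      rw [run_tape τ' δ' hδ' _ (dig_reverse hdn), run_tape τ' δ' hδ' _ (dig_reverse hdm),
        hr.2 q']
    rw [e1, e2]
    exact hm.2.2
  · intro x hx y hy n hn hxy
    have h1 : (x : ℤ) - y ∈ ((A : Set ℤ) - (A : Set ℤ)) ∩
        {m : ℤ | ∃ n : ℕ, 1 ≤ n ∧ h.eval (n : ℤ) = m} :=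
      ⟨Set.sub_mem_sub hx hy, n, hn, hxy⟩
    have h2 := hfree h1
    rw [hxy]
    exact h2

/-- The power saving, uniformly in all automata with the states `Fin s`. -/
theorem saving (h : ℤ[X]) (hd : 1 ≤ h.natDegree) (z : ℤ) (hz : h.eval z = 0) {b : ℕ}
    (hb : 2 ≤ b) (s : ℕ) :
    ∃ θ C : ℝ, 0 < θ ∧ θ < 1 ∧ 0 < C ∧
      ∀ (B B' : Type) [AddCommMonoid B] [AddCommMonoid B'] (δ : Fin s → ℕ → Fin s × B)
        (δ' : Fin s → ℕ → Fin s × B') (q q' : Fin s) (S : Set ((Fin s × B) × (Fin s × B')))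
        (N : ℕ) (A : Finset ℤ), 1 ≤ N →
          (∀ a : ℤ, a ∈ A ↔ 1 ≤ a ∧ a ≤ N ∧ (run δ q (Nat.digits b a.toNat),
            run δ' q' (Nat.digits b a.toNat).reverse) ∈ S) → DiffFree h A →
          (A.card : ℝ) ≤ C * (N : ℝ) ^ θ := by
  classical
  -- the finitely many pairs of move tables
  let T := (Fin s → Fin b → Fin s) × (Fin s → Fin b → Fin s)
  let ext : (Fin s → Fin b → Fin s) → Fin s → ℕ → Fin s := fun τ q d =>
    if hlt : d < b then τ q ⟨d, hlt⟩ else q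
  have hT : ∀ t : T, ∃ θ C : ℝ, 0 < θ ∧ θ < 1 ∧ 0 < C ∧
      ∀ (B B' : Type) [AddCommMonoid B] [AddCommMonoid B'] (δ : Fin s → ℕ → Fin s × B)
        (δ' : Fin s → ℕ → Fin s × B'), (∀ q d, d < b → (δ q d).1 = ext t.1 q d) →
        (∀ q d, d < b → (δ' q d).1 = ext t.2 q d) →
        ∀ (q q' : Fin s) (S : Set ((Fin s × B) × (Fin s × B'))) (N : ℕ) (A : Finset ℤ), 1 ≤ N →
          (∀ a : ℤ, a ∈ A ↔ 1 ≤ a ∧ a ≤ N ∧ (run δ q (Nat.digits b a.toNat),
            run δ' q' (Nat.digits b a.toNat).reverse) ∈ S) → DiffFree h A →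
          (A.card : ℝ) ≤ C * (N : ℝ) ^ θ :=
    fun t => saving_of_moves h hd z hz hb (ext t.1) (ext t.2)
  choose θ C hθ0 hθ1 hC hmain using hT
  -- the largest constants
  obtain ⟨Θ, hΘ0, hΘ1, hΘ⟩ : ∃ Θ : ℝ, 0 < Θ ∧ Θ < 1 ∧ ∀ t, θ t ≤ Θ := by
    rcases isEmpty_or_nonempty T with hE | hE
    · exact ⟨1 / 2, by norm_num, by norm_num, fun t => (hE.false t).elim⟩
    · obtain ⟨t, ht⟩ := Finite.exists_max θ
      exact ⟨θ t, hθ0 t, hθ1 t, ht⟩
  obtain ⟨K, hK0, hK⟩ : ∃ K : ℝ, 0 < K ∧ ∀ t, C t ≤ K := by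
    rcases isEmpty_or_nonempty T with hE | hE
    · exact ⟨1, one_pos, fun t => (hE.false t).elim⟩
    · obtain ⟨t, ht⟩ := Finite.exists_max C
      exact ⟨C t, hC t, ht⟩
  refine ⟨Θ, K, hΘ0, hΘ1, hK0, ?_⟩
  intro B B' _ _ δ δ' q q' S N A hN hA hfree
  let t : T := (fun q d => (δ q d).1, fun q d => (δ' q d).1)
  have h1 := hmain t B B' δ δ' (fun q d hdb => by simp [ext, t, hdb])
    (fun q d hdb => by simp [ext, t, hdb]) q q' S N A hN hA hfree
  have hN1 : (1 : ℝ) ≤ N := by exact_mod_cast hN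
  calc (A.card : ℝ) ≤ C t * (N : ℝ) ^ θ t := h1
    _ ≤ K * (N : ℝ) ^ Θ := by
      apply mul_le_mul (hK t) (Real.rpow_le_rpow_of_exponent_le hN1 (hΘ t)) (by positivity)
        hK0.le

end Vale.Agent.P042.H886
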