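import Vale.Agent.P042.R2.H886.Words
import Vale.Agent.P057.R3.H664.Shift
import Vale.Agent.P042.Defs

set_option autoImplicit false

/-!
P042, digit statistics: a difference-free union of classes avoids a digit pattern.
-/

namespace Vale.Agent.P042.H886

open Vale.Agent.P057.H380 Polynomial

theorem div_add_high {β n D p P : ℕ} (hβ : 0 < β) (h : n / β ^ p % β + D < β) (hP : p < P) :
    (n + D * β ^ p) / β ^ P = n / β ^ P := by
  obtain ⟨s, rfl⟩ : ∃ s, P = p + 1 + s := ⟨P - (p + 1), by omega⟩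
  have hp : 0 < β ^ p := by positivity
  rw [pow_add, pow_add, pow_one, ← Nat.div_div_eq_div_mul, ← Nat.div_div_eq_div_mul,
    ← Nat.div_div_eq_div_mul, ← Nat.div_div_eq_div_mul, Nat.add_mul_div_right _ _ hp]
  congr 1
  rw [Nat.div_eq_iff hβ]
  have h1 := Nat.div_add_mod (n / β ^ p) β
  constructor
  · have : n / β ^ p / β * β = β * (n / β ^ p / β) := mul_comm _ _
    omega
  · have : n / β ^ p / β * β = β * (n / β ^ p / β) := mul_comm _ _
    omega

theorem digit_add {β n D p p' : ℕ} (hβ : 0 < β) (h : n / β ^ p % β + D < β) (hne : p' ≠ p) :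
    (n + D * β ^ p) / β ^ p' % β = n / β ^ p' % β := by
  rcases Nat.lt_or_gt_of_ne hne with hlt | hgt
  · obtain ⟨s, rfl⟩ : ∃ s, p = p' + 1 + s := ⟨p - (p' + 1), by omega⟩
    have hp : 0 < β ^ p' := by positivity
    have e1 : D * β ^ (p' + 1 + s) = (D * β ^ s * β) * β ^ p' := by
      rw [pow_add, pow_add, pow_one]; ring
    rw [e1, Nat.add_mul_div_right _ _ hp, Nat.add_mul_mod_self_right]
  · rw [div_add_high hβ h hgt]

theorem shift1 {b : ℕ} (hb : 2 ≤ b) {r : List ℕ → List ℕ → Prop} (hr : Cong r)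
    {w w' : List ℕ} {D m : ℕ} (hw : Dig b w) (hw' : Dig b w') (hl : w.length = m)
    (hl' : w'.length = m) (ht : w.getLast? = some 1) (ht' : w'.getLast? = some 1)
    (hrw : r w w') (hv : Nat.ofDigits b w' = Nat.ofDigits b w + D) {n i : ℕ}
    (hi : n / (b ^ m) ^ i % b ^ m = Nat.ofDigits b w) :
    r (Nat.digits b n) (Nat.digits b (n + D * (b ^ m) ^ i)) := by
  have h := Vale.Agent.P057.R3.H664.shift hb hr
    (A := {x | r (Nat.digits b n) (Nat.digits b x)})
    (fun x y hxy => ⟨fun hx => hr.eqv.trans hx hxy, fun hy => hr.eqv.trans hy (hr.eqv.symm hxy)⟩)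
    (k := 2) (w := fun j => if j = 0 then w else w') (D := D) (m := m) ?_
    (n := n) (i := i) (hr.eqv.refl _) (by simpa using hi) 1 (by omega)
  · simpa using h
  · intro j hj
    have : j = 0 ∨ j = 1 := by omega
    rcases this with rfl | rfl
    · simpa using ⟨hw, hl, ht, hr.eqv.refl _⟩
    · simpa using ⟨hw', hl', ht', hrw, hv⟩

/-- Replacing several windows. -/
theorem multi {b : ℕ} (hb : 2 ≤ b) {r : List ℕ → List ℕ → Prop} (hr : Cong r) {k m : ℕ}
    {w w' : ℕ → List ℕ} {D : ℕ → ℕ}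
    (hw : ∀ j, 1 ≤ j → j ≤ k → Dig b (w j) ∧ Dig b (w' j) ∧ (w j).length = m ∧
      (w' j).length = m ∧ (w j).getLast? = some 1 ∧ (w' j).getLast? = some 1 ∧ r (w j) (w' j) ∧
      Nat.ofDigits b (w' j) = Nat.ofDigits b (w j) + D j)
    {i y : ℕ} (hi : 1 ≤ i)
    (hy : ∀ j, 1 ≤ j → j ≤ k → y / (b ^ m) ^ (j * i) % b ^ m = Nat.ofDigits b (w j))
    (J : Finset ℕ) (hJ : ∀ j ∈ J, 1 ≤ j ∧ j ≤ k) :
    r (Nat.digits b y) (Nat.digits b (y + ∑ j ∈ J, D j * (b ^ m) ^ (j * i))) ∧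
      (∀ p, (∀ j ∈ J, p ≠ j * i) →
        (y + ∑ j ∈ J, D j * (b ^ m) ^ (j * i)) / (b ^ m) ^ p % b ^ m = y / (b ^ m) ^ p % b ^ m) ∧
      ∀ P, (∀ j ∈ J, j * i < P) →
        (y + ∑ j ∈ J, D j * (b ^ m) ^ (j * i)) / (b ^ m) ^ P = y / (b ^ m) ^ P := by
  classical
  have hβ : 0 < b ^ m := Nat.pow_pos (by omega)
  induction J using Finset.induction_on with
  | empty => simpa using hr.eqv.refl _
  | insert a J ha ih =>
    obtain ⟨ih1, ih2, ih3⟩ := ih (fun j hj => hJ j (Finset.mem_insert_of_mem hj))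
    obtain ⟨ha1, hak⟩ := hJ a (Finset.mem_insert_self _ _)
    obtain ⟨h1, h2, h3, h4, h5, h6, h7, h8⟩ := hw a ha1 hak
    have e : y + ∑ j ∈ insert a J, D j * (b ^ m) ^ (j * i) =
        (y + ∑ j ∈ J, D j * (b ^ m) ^ (j * i)) + D a * (b ^ m) ^ (a * i) := by
      rw [Finset.sum_insert ha]; ring
    rw [e]
    set y' := y + ∑ j ∈ J, D j * (b ^ m) ^ (j * i) with hy'
    have hdig : y' / (b ^ m) ^ (a * i) % b ^ m = Nat.ofDigits b (w a) := by
      rw [ih2 (a * i) ?_, hy a ha1 hak]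
      intro j hj hji
      have := Nat.eq_of_mul_eq_mul_right (by omega) hji
      rw [this] at ha
      exact ha hj
    have hlt : y' / (b ^ m) ^ (a * i) % b ^ m + D a < b ^ m := by
      rw [hdig, ← h8, ← h4]
      exact Nat.ofDigits_lt_base_pow_length (by omega) h2
    refine ⟨hr.eqv.trans ih1 (shift1 hb hr h1 h2 h3 h4 h5 h6 h7 h8 hdig), ?_, ?_⟩
    · intro p hp
      rw [digit_add hβ hlt (hp a (Finset.mem_insert_self _ _))]
      exact ih2 p (fun j hj => hp j (Finset.mem_insert_of_mem hj))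
    · intro P hP
      rw [div_add_high hβ hlt (hP a (Finset.mem_insert_self _ _))]
      exact ih3 P (fun j hj => hP j (Finset.mem_insert_of_mem hj))

/-- The values of a polynomial at a root plus `t`. -/
theorem eval_shift (h : ℤ[X]) (z : ℤ) (hz : h.eval z = 0) :
    ∃ a : ℕ → ℤ, ∀ t : ℤ, h.eval (t + z) = ∑ j ∈ Finset.Icc 1 h.natDegree, a j * t ^ j := by
  refine ⟨(h.comp (X + C z)).coeff, fun t => ?_⟩
  have h1 : h.eval (t + z) = (h.comp (X + C z)).eval t := by simp [eval_comp]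
  have hn : (h.comp (X + C z)).natDegree = h.natDegree := by
    rw [natDegree_comp, natDegree_X_add_C, mul_one]
  rw [h1, eval_eq_sum_range, hn]
  have h0 : (h.comp (X + C z)).coeff 0 = 0 := by
    rw [coeff_zero_eq_eval_zero]; simp [eval_comp, hz]
  rw [Finset.sum_range_succ']
  rw [h0, zero_mul, add_zero]
  rw [Finset.range_eq_Ico, Finset.sum_Ico_add' (fun j => (h.comp (X + C z)).coeff j * t ^ j) 0
    h.natDegree 1]
  rfl

/-- **Pattern.** A union of classes in `[1, N]` without `h`-differences avoids the pattern of the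
digits `v j` in base `β` at the places `j i`, for every `i`. -/
theorem pattern (h : ℤ[X]) (hd : 1 ≤ h.natDegree) (z : ℤ) (hz : h.eval z = 0) {b : ℕ}
    (hb : 2 ≤ b) {r : List ℕ → List ℕ → Prop} (hr : Cong r) {e : List ℕ}
    (he : Dig b e) {N₀ : ℕ} (hN₀ : 1 ≤ N₀)
    (hc : ∀ u v : List ℕ, Dig b u → Dig b v →
      r (pw e N₀ u ++ pw e N₀ v) (pw e N₀ v ++ pw e N₀ u)) :
    ∃ (β : ℕ) (v : ℕ → ℕ), 2 ≤ β ∧ (∀ j, v j < β) ∧ ∀ (N : ℕ) (A : Set ℕ),
      (∀ m n : ℕ, m ∈ A → 1 ≤ m → 1 ≤ n → n ≤ N → r (Nat.digits b m) (Nat.digits b n) → n ∈ A) →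
      (∀ x ∈ A, ∀ y ∈ A, ∀ n : ℕ, 1 ≤ n → h.eval (n : ℤ) = (x : ℤ) - y → h.eval (n : ℤ) = 0) →
      ∀ y ∈ A, 1 ≤ y → ∀ i P : ℕ, 1 ≤ i → h.natDegree * i < P → y / β ^ P < N / β ^ P →
        ∃ j, 1 ≤ j ∧ j ≤ h.natDegree ∧ y / β ^ (j * i) % β ≠ v j := by
  classical
  obtain ⟨a, ha⟩ := eval_shift h z hz
  set k := h.natDegree with hk
  have hh0 : h ≠ 0 := by rintro rfl; simp at hk; omega
  set G := ∑ j ∈ Finset.Icc 1 k, (a j).natAbs with hG
  set M := 2 * z.natAbs + 1 + ∑ x ∈ h.roots.toFinset, x.natAbs with hM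
  obtain ⟨c, m, hMc, hc1, hm1, hwords⟩ := polyWords hb hr he hN₀ hc k G M
  have haG : ∀ j, 1 ≤ j → j ≤ k → (a j).natAbs ≤ G := fun j h1 h2 =>
    Finset.single_le_sum (f := fun j => (a j).natAbs) (fun _ _ => Nat.zero_le _)
      (Finset.mem_Icc.2 ⟨h1, h2⟩)
  have hex : ∀ j, ∃ w w' : List ℕ, 1 ≤ j → j ≤ k → Dig b w ∧ Dig b w' ∧ w.length = m ∧
      w'.length = m ∧ w.getLast? = some 1 ∧ w'.getLast? = some 1 ∧ r w w' ∧
      Nat.ofDigits b w' = Nat.ofDigits b w + (a j).natAbs * c ^ j := by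
    intro j
    by_cases hj : 1 ≤ j ∧ j ≤ k
    · obtain ⟨w, w', hw⟩ := hwords j (a j).natAbs hj.1 hj.2 (haG j hj.1 hj.2)
      exact ⟨w, w', fun _ _ => hw⟩
    · exact ⟨[], [], fun h1 h2 => absurd ⟨h1, h2⟩ hj⟩
  choose w w' hw using hex
  have hb0 : 0 < b := by omega
  have hβ0 : 0 < b ^ m := Nat.pow_pos hb0
  have hβ2 : 2 ≤ b ^ m := le_trans hb (Nat.le_self_pow (by omega) b)
  refine ⟨b ^ m, fun j => if 1 ≤ j ∧ j ≤ k then Nat.ofDigits b (w j) else 0, hβ2, ?_, ?_⟩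
  · intro j
    by_cases hj : 1 ≤ j ∧ j ≤ k
    · simp only [hj, and_self, if_true]
      have := (hw j hj.1 hj.2)
      rw [← this.2.2.1]
      exact Nat.ofDigits_lt_base_pow_length (by omega) this.1
    · simp only [hj, if_false]
      exact hβ0
  · intro N A hA hfree y hyA hy1 i P hi hP hyN
    by_contra hcon
    push Not at hcon
    have hy : ∀ j, 1 ≤ j → j ≤ k → y / (b ^ m) ^ (j * i) % b ^ m = Nat.ofDigits b (w j) := by
      intro j h1 h2
      have := hcon j h1 h2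
      simpa [h1, h2] using this
    have hjP : ∀ j, j ≤ k → j * i < P := fun j hj =>
      lt_of_le_of_lt (Nat.mul_le_mul_right _ hj) hP
    have hmem : ∀ J : Finset ℕ, (∀ j ∈ J, 1 ≤ j ∧ j ≤ k) →
        y + ∑ j ∈ J, (a j).natAbs * c ^ j * (b ^ m) ^ (j * i) ∈ A := by
      intro J hJ
      obtain ⟨h1, _, h3⟩ := multi hb hr (D := fun j => (a j).natAbs * c ^ j) hw hi hy J hJ
      refine hA y _ hyA hy1 (by omega) ?_ h1
      have h4 := h3 P (fun j hj => hjP j (hJ j hj).2)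
      have h5 : (y + ∑ j ∈ J, (a j).natAbs * c ^ j * (b ^ m) ^ (j * i)) / (b ^ m) ^ P <
          N / (b ^ m) ^ P := by rw [h4]; exact hyN
      exact (lt_of_not_ge fun hge => absurd (Nat.div_le_div_right hge) (not_le.2 h5)).le
    set t : ℕ := c * (b ^ m) ^ i with ht
    have hterm : ∀ j, (((a j).natAbs * c ^ j * (b ^ m) ^ (j * i) : ℕ) : ℤ) =
        |a j| * (t : ℤ) ^ j := by
      intro j
      rw [ht]
      push_cast
      rw [mul_pow, mul_assoc, mul_comm j i, pow_mul]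
    have hpos := hmem ((Finset.Icc 1 k).filter fun j => 0 < a j)
      (fun j hj => Finset.mem_Icc.1 (Finset.mem_filter.1 hj).1)
    have hneg := hmem ((Finset.Icc 1 k).filter fun j => ¬ 0 < a j)
      (fun j hj => Finset.mem_Icc.1 (Finset.mem_filter.1 hj).1)
    have hdiff : ((y + ∑ j ∈ (Finset.Icc 1 k).filter (fun j => 0 < a j),
        (a j).natAbs * c ^ j * (b ^ m) ^ (j * i) : ℕ) : ℤ) -
        ((y + ∑ j ∈ (Finset.Icc 1 k).filter (fun j => ¬ 0 < a j),
          (a j).natAbs * c ^ j * (b ^ m) ^ (j * i) : ℕ) : ℤ) = h.eval ((t : ℤ) + z) := by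
      rw [ha, ← Finset.sum_filter_add_sum_filter_not (Finset.Icc 1 k) (fun j => 0 < a j)]
      rw [Nat.cast_add, Nat.cast_add, Nat.cast_sum, Nat.cast_sum]
      have e1 : ∑ j ∈ (Finset.Icc 1 k).filter (fun j => 0 < a j),
          (((a j).natAbs * c ^ j * (b ^ m) ^ (j * i) : ℕ) : ℤ) =
          ∑ j ∈ (Finset.Icc 1 k).filter (fun j => 0 < a j), a j * (t : ℤ) ^ j := by
        refine Finset.sum_congr rfl fun j hj => ?_
        rw [hterm, abs_of_pos (Finset.mem_filter.1 hj).2]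
      have e2 : ∑ j ∈ (Finset.Icc 1 k).filter (fun j => ¬ 0 < a j),
          (((a j).natAbs * c ^ j * (b ^ m) ^ (j * i) : ℕ) : ℤ) =
          - ∑ j ∈ (Finset.Icc 1 k).filter (fun j => ¬ 0 < a j), a j * (t : ℤ) ^ j := by
        rw [← Finset.sum_neg_distrib]
        refine Finset.sum_congr rfl fun j hj => ?_
        rw [hterm, abs_of_nonpos (not_lt.1 (Finset.mem_filter.1 hj).2)]
        ring
      rw [e1, e2]
      ring
    -- the argument is large
    have htM : M ≤ t := by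
      rw [ht]
      exact hMc.trans (Nat.le_mul_of_pos_right _ (Nat.pow_pos hβ0))
    have hn1 : 1 ≤ (t : ℤ) + z := by omega
    obtain ⟨n, hn⟩ : ∃ n : ℕ, (n : ℤ) = (t : ℤ) + z := ⟨((t : ℤ) + z).toNat,
      Int.toNat_of_nonneg (by omega)⟩
    have hroot : h.eval ((t : ℤ) + z) = 0 := by
      rw [← hn]
      refine hfree _ hpos _ hneg n (by omega) ?_
      rw [hn, hdiff]
    have hmemroot : (t : ℤ) + z ∈ h.roots.toFinset := by
      rw [Multiset.mem_toFinset, mem_roots hh0]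
      exact hroot
    have hle : ((t : ℤ) + z).natAbs ≤ ∑ x ∈ h.roots.toFinset, x.natAbs :=
      Finset.single_le_sum (f := fun x : ℤ => x.natAbs) (fun _ _ => Nat.zero_le _) hmemroot
    omega

end Vale.Agent.P042.H886
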