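import Vale.Agent.P042.R2.H886.Main
import Vale.Agent.P042.R2.H546.Count
import Vale.Agent.P057.R3.H664.Virt

set_option autoImplicit false

/-!
P042, digit statistics with outputs in a product of a virtually nilpotent group and a commutative
monoid.
-/

namespace Vale.Agent.P042.H886

open Vale.Agent.P057.H380 Polynomial Pointwise

/-- **Pattern**, from equivalent words whose values differ by `g * c ^ j`. -/
theorem pattern' (h : ℤ[X]) (hd : 1 ≤ h.natDegree) (z : ℤ) (hz : h.eval z = 0) {b : ℕ}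
    (hb : 2 ≤ b) {r : List ℕ → List ℕ → Prop} (hr : Cong r)
    (hW : ∀ d g₀ M : ℕ, ∃ c L : ℕ, M ≤ c ∧ 0 < L ∧ ∀ j, 1 ≤ j → j ≤ d → ∀ g ≤ g₀,
      ∃ u v : List ℕ, Dig b u ∧ Dig b v ∧ u.length = L ∧ v.length = L ∧ u.getLast? = some 1 ∧
        v.getLast? = some 1 ∧ r u v ∧ Nat.ofDigits b v = Nat.ofDigits b u + g * c ^ j) :
    ∃ (β : ℕ) (v : ℕ → ℕ), 2 ≤ β ∧ (∀ j, v j < β) ∧ ∀ (N : ℕ) (A : Set ℕ),
      (∀ m n : ℕ, m ∈ A → 1 ≤ m → 1 ≤ n → n ≤ N → r (Nat.digits b m) (Nat.digits b n) → n ∈ A) →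
      (∀ x ∈ A, ∀ y ∈ A, ∀ n : ℕ, 1 ≤ n → h.eval (n : ℤ) = (x : ℤ) - y → h.eval (n : ℤ) = 0) →
      ∀ y ∈ A, 1 ≤ y → ∀ i P : ℕ, 1 ≤ i → h.natDegree * i < P → y / β ^ P < N / β ^ P →
        ∃ j, 1 ≤ j ∧ j ≤ h.natDegree ∧ y / β ^ (j * i) % β ≠ v j := by
  classical
  obtain ⟨a, ha⟩ := eval_shift h z hz
  set k := h.natDegree with hk
  have hh0 : h ≠ 0 := by rintro rfl; simp at hk; omega
  set G := ∑ j ∈ Finset.Icc 1 k, (a j).natAbs with hG
  set M := 2 * z.natAbs + 1 + ∑ x ∈ h.roots.toFinset, x.natAbs with hM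
  obtain ⟨c, m, hMc, hm1, hwords⟩ := hW k G M
  have hc1 : 1 ≤ c := by omega
  have haG : ∀ j, 1 ≤ j → j ≤ k → (a j).natAbs ≤ G := fun j h1 h2 =>
    Finset.single_le_sum (f := fun j => (a j).natAbs) (fun _ _ => Nat.zero_le _)
      (Finset.mem_Icc.2 ⟨h1, h2⟩)
  have hex : ∀ j, ∃ w w' : List ℕ, 1 ≤ j → j ≤ k → Dig b w ∧ Dig b w' ∧ w.length = m ∧
      w'.length = m ∧ w.getLast? = some 1 ∧ w'.getLast? = some 1 ∧ r w w' ∧
      Nat.ofDigits b w' = Nat.ofDigits b w + (a j).natAbs * c ^ j := by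
    intro j
    by_cases hj : 1 ≤ j ∧ j ≤ k
    · obtain ⟨w, w', hw⟩ := hwords j hj.1 hj.2 (a j).natAbs (haG j hj.1 hj.2)
      exact ⟨w, w', fun _ _ => hw⟩
    · exact ⟨[], [], fun h1 h2 => absurd ⟨h1, h2⟩ hj⟩
  choose w w' hw using hex
  have hb0 : 0 < b := by omega
  have hβ0 : 0 < b ^ m := Nat.pow_pos hb0
  have hβ2 : 2 ≤ b ^ m := le_trans hb (Nat.le_self_pow (by omega) b)
  refine ⟨b ^ m, fun j => if 1 ≤ j ∧ j ≤ k then Nat.ofDigits b (w j) else 0, hβ2, ?_, ?_⟩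
  · intro j
    by_cases hj : 1 ≤ j ∧ j ≤ k
    · simp only [hj, and_self, if_true]
      have := (hw j hj.1 hj.2)
      rw [← this.2.2.1]
      exact Nat.ofDigits_lt_base_pow_length (by omega) this.1
    · simp only [hj, if_false]
      exact hβ0
  · intro N A hA hfree y hyA hy1 i P hi hP hyN
    by_contra hcon
    push Not at hcon
    have hy : ∀ j, 1 ≤ j → j ≤ k → y / (b ^ m) ^ (j * i) % b ^ m = Nat.ofDigits b (w j) := by
      intro j h1 h2
      have := hcon j h1 h2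
      simpa [h1, h2] using this
    have hjP : ∀ j, j ≤ k → j * i < P := fun j hj =>
      lt_of_le_of_lt (Nat.mul_le_mul_right _ hj) hP
    have hmem : ∀ J : Finset ℕ, (∀ j ∈ J, 1 ≤ j ∧ j ≤ k) →
        y + ∑ j ∈ J, (a j).natAbs * c ^ j * (b ^ m) ^ (j * i) ∈ A := by
      intro J hJ
      obtain ⟨h1, _, h3⟩ := multi hb hr (D := fun j => (a j).natAbs * c ^ j) hw hi hy J hJ
      refine hA y _ hyA hy1 (by omega) ?_ h1
      have h4 := h3 P (fun j hj => hjP j (hJ j hj).2)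
      have h5 : (y + ∑ j ∈ J, (a j).natAbs * c ^ j * (b ^ m) ^ (j * i)) / (b ^ m) ^ P <
          N / (b ^ m) ^ P := by rw [h4]; exact hyN
      exact (lt_of_not_ge fun hge => absurd (Nat.div_le_div_right hge) (not_le.2 h5)).le
    set t : ℕ := c * (b ^ m) ^ i with ht
    have hterm : ∀ j, (((a j).natAbs * c ^ j * (b ^ m) ^ (j * i) : ℕ) : ℤ) =
        |a j| * (t : ℤ) ^ j := by
      intro j
      rw [ht]
      push_cast
      rw [mul_pow, mul_assoc, mul_comm j i, pow_mul]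
    have hpos := hmem ((Finset.Icc 1 k).filter fun j => 0 < a j)
      (fun j hj => Finset.mem_Icc.1 (Finset.mem_filter.1 hj).1)
    have hneg := hmem ((Finset.Icc 1 k).filter fun j => ¬ 0 < a j)
      (fun j hj => Finset.mem_Icc.1 (Finset.mem_filter.1 hj).1)
    have hdiff : ((y + ∑ j ∈ (Finset.Icc 1 k).filter (fun j => 0 < a j),
        (a j).natAbs * c ^ j * (b ^ m) ^ (j * i) : ℕ) : ℤ) -
        ((y + ∑ j ∈ (Finset.Icc 1 k).filter (fun j => ¬ 0 < a j),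
          (a j).natAbs * c ^ j * (b ^ m) ^ (j * i) : ℕ) : ℤ) = h.eval ((t : ℤ) + z) := by
      rw [ha, ← Finset.sum_filter_add_sum_filter_not (Finset.Icc 1 k) (fun j => 0 < a j)]
      rw [Nat.cast_add, Nat.cast_add, Nat.cast_sum, Nat.cast_sum]
      have e1 : ∑ j ∈ (Finset.Icc 1 k).filter (fun j => 0 < a j),
          (((a j).natAbs * c ^ j * (b ^ m) ^ (j * i) : ℕ) : ℤ) =
          ∑ j ∈ (Finset.Icc 1 k).filter (fun j => 0 < a j), a j * (t : ℤ) ^ j := by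
        refine Finset.sum_congr rfl fun j hj => ?_
        rw [hterm, abs_of_pos (Finset.mem_filter.1 hj).2]
      have e2 : ∑ j ∈ (Finset.Icc 1 k).filter (fun j => ¬ 0 < a j),
          (((a j).natAbs * c ^ j * (b ^ m) ^ (j * i) : ℕ) : ℤ) =
          - ∑ j ∈ (Finset.Icc 1 k).filter (fun j => ¬ 0 < a j), a j * (t : ℤ) ^ j := by
        rw [← Finset.sum_neg_distrib]
        refine Finset.sum_congr rfl fun j hj => ?_
        rw [hterm, abs_of_nonpos (not_lt.1 (Finset.mem_filter.1 hj).2)]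
        ring
      rw [e1, e2]
      ring
    -- the argument is large
    have htM : M ≤ t := by
      rw [ht]
      exact hMc.trans (Nat.le_mul_of_pos_right _ (Nat.pow_pos hβ0))
    have hn1 : 1 ≤ (t : ℤ) + z := by omega
    obtain ⟨n, hn⟩ : ∃ n : ℕ, (n : ℤ) = (t : ℤ) + z := ⟨((t : ℤ) + z).toNat,
      Int.toNat_of_nonneg (by omega)⟩
    have hroot : h.eval ((t : ℤ) + z) = 0 := by
      rw [← hn]
      refine hfree _ hpos _ hneg n (by omega) ?_
      rw [hn, hdiff]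
    have hmemroot : (t : ℤ) + z ∈ h.roots.toFinset := by
      rw [Multiset.mem_toFinset, mem_roots hh0]
      exact hroot
    have hle : ((t : ℤ) + z).natAbs ≤ ∑ x ∈ h.roots.toFinset, x.natAbs :=
      Finset.single_le_sum (f := fun x : ℤ => x.natAbs) (fun _ _ => Nat.zero_le _) hmemroot
    omega

open Vale.Agent.P057.R3.H664 (mrun nrel nrel_cong virt_poly_words) in
/-- The power saving for outputs in `G × B`, `G` virtually nilpotent, `B` commutative. -/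
theorem saving_virt (h : ℤ[X]) (hd : 1 ≤ h.natDegree) (z : ℤ) (hz : h.eval z = 0) {b : ℕ}
    (hb : 2 ≤ b) {Q Q' G B G' B' : Type} [Finite Q] [Finite Q'] [Group G] [CommMonoid B]
    [Group G'] [CommMonoid B'] (hG : Group.IsVirtuallyNilpotent G)
    (hG' : Group.IsVirtuallyNilpotent G') (δ : Q → ℕ → Q × (G × B))
    (δ' : Q' → ℕ → Q' × (G' × B')) :
    ∃ θ C : ℝ, 0 < θ ∧ θ < 1 ∧ 0 < C ∧
      ∀ (q : Q) (q' : Q') (S : Set ((Q × (G × B)) × (Q' × (G' × B')))) (N : ℕ) (A : Finset ℤ),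
        1 ≤ N → (∀ a : ℤ, a ∈ A ↔ 1 ≤ a ∧ a ≤ N ∧ (mrun δ q (Nat.digits b a.toNat),
            mrun δ' q' (Nat.digits b a.toNat).reverse) ∈ S) → DiffFree h A →
          (A.card : ℝ) ≤ C * (N : ℝ) ^ θ := by
  obtain ⟨β, v, hβ, hv, hpat⟩ := pattern' h hd z hz hb (nrel_cong δ δ')
    (fun d g₀ M => virt_poly_words hb hG hG' δ δ' d g₀ M)
  obtain ⟨θ, C, hθ0, hθ1, hC, hcount⟩ := Vale.Agent.P042.H546.count hβ hd hv
  refine ⟨θ, C, hθ0, hθ1, hC, ?_⟩
  intro q q' S N A hN hA hfree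
  set A' : Set ℕ := {n | (n : ℤ) ∈ A} with hA'
  have himg : (A : Set ℤ) = (fun n : ℕ => (n : ℤ)) '' A' := by
    ext a
    constructor
    · intro ha
      have h1 := (hA a).1 ha
      refine ⟨a.toNat, ?_, Int.toNat_of_nonneg (by omega)⟩
      rw [hA', Set.mem_ofPred_eq, Int.toNat_of_nonneg (by omega)]
      exact ha
    · rintro ⟨n, hn, rfl⟩
      exact hn
  have hcard : A.card = A'.ncard := by
    rw [← Set.ncard_coe_finset, himg, Set.ncard_image_of_injective _ Nat.cast_injective]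
  rw [hcard]
  have hmem : ∀ n : ℕ, n ∈ A' ↔ 1 ≤ n ∧ n ≤ N ∧ (mrun δ q (Nat.digits b n),
      mrun δ' q' (Nat.digits b n).reverse) ∈ S := by
    intro n
    rw [hA', Set.mem_ofPred_eq, hA, Int.toNat_natCast]
    constructor
    · rintro ⟨h1, h2, h3⟩
      exact ⟨by omega, by omega, h3⟩
    · rintro ⟨h1, h2, h3⟩
      exact ⟨by omega, by omega, h3⟩
  refine hcount N A' hN (fun n hn => ⟨((hmem n).1 hn).1, ((hmem n).1 hn).2.1⟩) ?_
  intro y hy i P hi hP hlt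
  refine hpat N A' ?_ ?_ y hy ((hmem y).1 hy).1 i P hi hP hlt
  · intro m n hm _ hn1 hnN hr
    rw [hmem] at hm ⊢
    refine ⟨hn1, hnN, ?_⟩
    rw [← hr.1 q, ← hr.2 q']
    exact hm.2.2
  · intro x hx y hy n hn hxy
    have h1 : (x : ℤ) - y ∈ ((A : Set ℤ) - (A : Set ℤ)) ∩
        {m : ℤ | ∃ n : ℕ, 1 ≤ n ∧ h.eval (n : ℤ) = m} :=
      ⟨Set.sub_mem_sub hx hy, n, hn, hxy⟩
    have h2 := hfree h1
    rw [hxy]
    exact h2

end Vale.Agent.P042.H886
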