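import Vale.Agent.P042.R2.H886.RelTypes
import Vale.Agent.P042.UU.Wire

set_option autoImplicit false

/-!
P042: power saving from few types of digits.
-/

namespace Vale.Agent.P042.H886

open Polynomial Filter

theorem two_rpow {c : ℝ} (hc : c < 1) :
    ∃ c' : ℝ, c' < 1 ∧ ∃ t₀ : ℝ, ∀ t : ℝ, t₀ ≤ t → 2 * t ^ c ≤ t ^ c' := by
  set c₁ : ℝ := max c (1 / 2) with hc₁
  have h1 : c₁ < 1 := max_lt hc (by norm_num)
  have h0 : 0 < c₁ := lt_of_lt_of_le (by norm_num) (le_max_right c (1 / 2))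
  have hd : 0 < (c₁ + 1) / 2 - c₁ := by linarith
  refine ⟨(c₁ + 1) / 2, by linarith, ?_⟩
  have e1 := (tendsto_rpow_atTop hd).eventually_ge_atTop 2
  have e3 := Filter.eventually_ge_atTop (1 : ℝ)
  obtain ⟨t₀, ht₀⟩ := Filter.eventually_atTop.1 (e1.and e3)
  refine ⟨t₀, fun t ht => ?_⟩
  obtain ⟨a1, a3⟩ := ht₀ t ht
  have hn0 : (0 : ℝ) < t := by linarith
  calc 2 * t ^ c ≤ 2 * t ^ c₁ := by
        have := Real.rpow_le_rpow_of_exponent_le a3 (le_max_left c (1 / 2))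
        linarith
    _ ≤ t ^ ((c₁ + 1) / 2 - c₁) * t ^ c₁ :=
        mul_le_mul_of_nonneg_right a1 (Real.rpow_nonneg hn0.le _)
    _ = t ^ ((c₁ + 1) / 2) := by rw [← Real.rpow_add hn0, sub_add_cancel]

/-- From the starting bound: `r(N) exp ((log N) ^ c) ≤ ε N` for large `N`. -/
theorem rMax_small {a : ℤ} {k : ℕ} (ha : 1 ≤ a) (hk : 2 ≤ k) (c : ℝ) (hc : c < 1) (ε : ℝ)
    (hε : 0 < ε) :
    ∃ N₀ : ℕ, ∀ N : ℕ, N₀ ≤ N →
      (rMax (C a * X ^ k : ℤ[X]) N : ℝ) * Real.exp ((Real.log N) ^ c) ≤ ε * N := by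
  have ha0 : a ≠ 0 := by omega
  have hdeg : (C a * X ^ k : ℤ[X]).natDegree = k := natDegree_C_mul_X_pow k a ha0
  have hlead : (C a * X ^ k : ℤ[X]).leadingCoeff = a := leadingCoeff_C_mul_X_pow a k
  have hint : Intersective (C a * X ^ k : ℤ[X]) := by
    intro r _
    refine ⟨0, ?_⟩
    have : (C a * X ^ k : ℤ[X]).eval 0 = 0 := by
      simp [show k ≠ 0 by omega]
    rw [this]
    exact dvd_zero _
  obtain ⟨c₁, hc₁, t₀, ht₀⟩ := two_rpow hc
  obtain ⟨K, hK0, hr⟩ := UU.final5_holds (C a * X ^ k : ℤ[X]) (by rw [hdeg]; exact hk)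
    (by rw [hlead]; omega) hint c₁ hc₁
  have hlog := Real.tendsto_log_atTop.comp tendsto_natCast_atTop_atTop
  -- `K exp (- (log N) ^ c) ≤ ε` needs a growing exponent, so we pass to a larger `c`
  set c₂ : ℝ := max c (1 / 2) with hc₂
  have h2 : c₂ < 1 := max_lt hc (by norm_num)
  have h20 : 0 < c₂ := lt_of_lt_of_le (by norm_num) (le_max_right c (1 / 2))
  obtain ⟨c₃, hc₃, t₁, ht₁⟩ := two_rpow h2
  obtain ⟨K', hK'0, hr'⟩ := UU.final5_holds (C a * X ^ k : ℤ[X]) (by rw [hdeg]; exact hk)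
    (by rw [hlead]; omega) hint c₃ hc₃
  have e1 := hlog.eventually_ge_atTop t₁
  have e2 := ((tendsto_rpow_atTop h20).comp hlog).eventually_ge_atTop (Real.log (K' / ε))
  have e3 := hlog.eventually_ge_atTop 1
  obtain ⟨N₀, hN₀⟩ := Filter.eventually_atTop.1 (e1.and (e2.and e3))
  refine ⟨N₀ + 1, fun N hN => ?_⟩
  obtain ⟨a1, a2, a3⟩ := hN₀ N (by omega)
  have a1' : t₁ ≤ Real.log N := a1
  have a2' : Real.log (K' / ε) ≤ (Real.log N) ^ c₂ := a2
  have a3' : 1 ≤ Real.log N := a3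
  have b1 := hr' N (by omega)
  have b2 := ht₁ _ a1'
  have b3 : (Real.log N) ^ c ≤ (Real.log N) ^ c₂ :=
    Real.rpow_le_rpow_of_exponent_le a3' (le_max_left _ _)
  have hKε : 0 < K' / ε := by positivity
  have b4 : K' / ε ≤ Real.exp ((Real.log N) ^ c₂) := by
    rw [← Real.exp_log hKε]
    exact Real.exp_le_exp.2 a2'
  have b5 : K' ≤ ε * Real.exp ((Real.log N) ^ c₂) := by
    rwa [div_le_iff₀ hε, mul_comm] at b4
  have hN0 : (0 : ℝ) ≤ N := Nat.cast_nonneg N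
  calc (rMax (C a * X ^ k : ℤ[X]) N : ℝ) * Real.exp ((Real.log N) ^ c)
      ≤ (K' * N * Real.exp (-(Real.log N) ^ c₃)) * Real.exp ((Real.log N) ^ c₂) :=
        mul_le_mul b1 (Real.exp_le_exp.2 b3) (Real.exp_pos _).le (by positivity)
    _ = K' * N * Real.exp ((Real.log N) ^ c₂ - (Real.log N) ^ c₃) := by
        rw [mul_assoc, ← Real.exp_add]
        congr 2
        ring
    _ ≤ K' * N * Real.exp (-(Real.log N) ^ c₂) := by
        refine mul_le_mul_of_nonneg_left (Real.exp_le_exp.2 (by linarith)) (by positivity)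
    _ ≤ (ε * Real.exp ((Real.log N) ^ c₂)) * N * Real.exp (-(Real.log N) ^ c₂) := by
        refine mul_le_mul_of_nonneg_right ?_ (Real.exp_pos _).le
        exact mul_le_mul_of_nonneg_right b5 hN0
    _ = ε * N * (Real.exp ((Real.log N) ^ c₂) * Real.exp (-(Real.log N) ^ c₂)) := by ring
    _ = ε * N := by rw [← Real.exp_add, add_neg_cancel, Real.exp_zero, mul_one]

/-- **Power saving from few types.** -/
theorem types_saving {a : ℤ} {k : ℕ} (ha : 1 ≤ a) (hk : 2 ≤ k) (κ : ℝ) (hκ : κ < 1) (ε : ℝ)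
    (hε : 0 < ε) :
    ∃ m₀ : ℕ, ∀ m : ℕ, m₀ ≤ m → ∀ (T : ℕ) (A A' : Finset ℤ) (J : Finset (Fin T)),
      (∀ n ∈ A, 0 ≤ n ∧ n < (((m ^ k) ^ T : ℕ) : ℤ)) → A' ⊆ A →
      DiffFree (C a * X ^ k) A' →
      (∀ i ∈ J, (types (m ^ k) A i : ℝ) ≤ Real.exp ((Real.log ((m ^ k : ℕ) : ℝ)) ^ κ)) →
      (A'.card : ℝ) ≤ ε * A.card + ((m ^ k : ℕ) : ℝ) ^ T *
        Real.exp (-(J.card * (Real.log ((m ^ k : ℕ) : ℝ)) ^ κ)) := by
  classical
  obtain ⟨c, hc, t₀, ht₀⟩ := two_rpow hκ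
  obtain ⟨N₀, hN₀⟩ := rMax_small ha hk c hc ε hε
  have hlog := Real.tendsto_log_atTop.comp tendsto_natCast_atTop_atTop
  obtain ⟨N₁, hN₁⟩ := Filter.eventually_atTop.1 (hlog.eventually_ge_atTop t₀)
  refine ⟨max N₀ N₁ + 1, fun m hm T A A' J hA hsub hfree hJ => ?_⟩
  have hmk : m ≤ m ^ k := Nat.le_self_pow (by omega) m
  set s := m ^ k with hs
  have hs0 : N₀ ≤ s := by
    have := le_max_left N₀ N₁
    omega
  have hs1 : N₁ ≤ s := by
    have := le_max_right N₀ N₁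
    omega
  have h1 := rel_type_lemma a k m T (by omega) A A' hA hsub hfree ε hε
  rw [← hs] at h1
  refine h1.trans (add_le_add le_rfl ?_)
  set E : ℝ := Real.exp (-(Real.log (s : ℝ)) ^ κ) with hE
  have h2 := hN₀ s hs0
  have h3 := ht₀ (Real.log s) (hN₁ s hs1)
  set r : ℝ := (rMax (C a * X ^ k : ℤ[X]) s : ℝ) with hr
  have hr0 : 0 ≤ r := Nat.cast_nonneg _
  have hterm : ∀ i : Fin T, min (s : ℝ) (types s A i * (r / ε)) ≤
      (s : ℝ) * (if i ∈ J then E else 1) := by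
    intro i
    by_cases hi : i ∈ J
    · rw [if_pos hi]
      refine (min_le_right _ _).trans ?_
      have h4 : r * Real.exp ((Real.log (s : ℝ)) ^ κ * 2) ≤ ε * s :=
        (mul_le_mul_of_nonneg_left (Real.exp_le_exp.2 (by linarith)) hr0).trans h2
      have h5 : r * Real.exp ((Real.log (s : ℝ)) ^ κ) ≤ ε * (s * E) := by
        have h6 : Real.exp ((Real.log (s : ℝ)) ^ κ) =
            Real.exp ((Real.log (s : ℝ)) ^ κ * 2) * E := by
          rw [hE, ← Real.exp_add]; congr 1; ring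
        calc r * Real.exp ((Real.log (s : ℝ)) ^ κ)
            = (r * Real.exp ((Real.log (s : ℝ)) ^ κ * 2)) * E := by rw [h6]; ring
          _ ≤ (ε * s) * E := mul_le_mul_of_nonneg_right h4 (Real.exp_pos _).le
          _ = ε * (s * E) := by ring
      calc (types s A i : ℝ) * (r / ε)
          ≤ Real.exp ((Real.log (s : ℝ)) ^ κ) * (r / ε) :=
            mul_le_mul_of_nonneg_right (hJ i hi) (by positivity)
        _ = (r * Real.exp ((Real.log (s : ℝ)) ^ κ)) / ε := by ring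
        _ ≤ s * E := by rw [div_le_iff₀ hε]; linarith
    · rw [if_neg hi, mul_one]
      exact min_le_left _ _
  calc ∏ i : Fin T, min (s : ℝ) (types s A i * (r / ε))
      ≤ ∏ i : Fin T, (s : ℝ) * (if i ∈ J then E else 1) := by
        apply Finset.prod_le_prod _ (fun i _ => hterm i)
        intro i _
        exact le_min (Nat.cast_nonneg _) (by positivity)
    _ = (s : ℝ) ^ T * E ^ J.card := by
        rw [Finset.prod_mul_distrib, Finset.prod_const, Finset.card_univ, Fintype.card_fin,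
          Finset.prod_ite_mem, Finset.univ_inter, Finset.prod_const]
    _ = (s : ℝ) ^ T * Real.exp (-(J.card * (Real.log (s : ℝ)) ^ κ)) := by
        rw [hE, ← Real.exp_nat_mul]
        congr 2
        ring

end Vale.Agent.P042.H886
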