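import Vale.Agent.P042.R2.H886.Main2
import Vale.Agent.P042.R2.H499.RegMat
import Vale.Agent.P057.R3.H664.RingWords
import Vale.Agent.P057.R3.H664.MatRing
import Vale.Agent.P057.R3.H244.TrBound
import Vale.Agent.P057.R3.H244.TrNil
import Vale.Agent.P057.R3.H244.NilIdeal

set_option autoImplicit false

/-!
P042: sets defined by an arbitrary condition on a `b`-regular sequence of polylogarithmic growth.
-/

namespace Vale.Agent.P042.H886

open Vale.Agent.P057.H380 Polynomial Pointwise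

/-- The power saving for unions of classes of a congruence with enough equivalent words. -/
theorem saving_words (h : ℤ[X]) (hd : 1 ≤ h.natDegree) (z : ℤ) (hz : h.eval z = 0) {b : ℕ}
    (hb : 2 ≤ b) {r : List ℕ → List ℕ → Prop} (hr : Cong r)
    (hW : ∀ d g₀ M : ℕ, ∃ c L : ℕ, M ≤ c ∧ 0 < L ∧ ∀ j, 1 ≤ j → j ≤ d → ∀ g ≤ g₀,
      ∃ u v : List ℕ, Dig b u ∧ Dig b v ∧ u.length = L ∧ v.length = L ∧ u.getLast? = some 1 ∧
        v.getLast? = some 1 ∧ r u v ∧ Nat.ofDigits b v = Nat.ofDigits b u + g * c ^ j) :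
    ∃ θ C : ℝ, 0 < θ ∧ θ < 1 ∧ 0 < C ∧
      ∀ (X : Set ℕ), (∀ m n : ℕ, r (Nat.digits b m) (Nat.digits b n) → m ∈ X → n ∈ X) →
        ∀ (N : ℕ) (A : Finset ℤ), 1 ≤ N → (∀ a : ℤ, a ∈ A ↔ 1 ≤ a ∧ a ≤ N ∧ a.toNat ∈ X) →
          DiffFree h A → (A.card : ℝ) ≤ C * (N : ℝ) ^ θ := by
  obtain ⟨β, v, hβ, hv, hpat⟩ := pattern' h hd z hz hb hr hW
  obtain ⟨θ, C, hθ0, hθ1, hC, hcount⟩ := Vale.Agent.P042.H546.count hβ hd hv
  refine ⟨θ, C, hθ0, hθ1, hC, ?_⟩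
  intro X hX N A hN hA hfree
  set A' : Set ℕ := {n | (n : ℤ) ∈ A} with hA'
  have himg : (A : Set ℤ) = (fun n : ℕ => (n : ℤ)) '' A' := by
    ext a
    constructor
    · intro ha
      have h1 := (hA a).1 ha
      refine ⟨a.toNat, ?_, Int.toNat_of_nonneg (by omega)⟩
      rw [hA', Set.mem_ofPred_eq, Int.toNat_of_nonneg (by omega)]
      exact ha
    · rintro ⟨n, hn, rfl⟩
      exact hn
  have hcard : A.card = A'.ncard := by
    rw [← Set.ncard_coe_finset, himg, Set.ncard_image_of_injective _ Nat.cast_injective]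
  rw [hcard]
  have hmem : ∀ n : ℕ, n ∈ A' ↔ 1 ≤ n ∧ n ≤ N ∧ n ∈ X := by
    intro n
    rw [hA', Set.mem_ofPred_eq, hA, Int.toNat_natCast]
    constructor
    · rintro ⟨h1, h2, h3⟩
      exact ⟨by omega, by omega, h3⟩
    · rintro ⟨h1, h2, h3⟩
      exact ⟨by omega, by omega, h3⟩
  refine hcount N A' hN (fun n hn => ⟨((hmem n).1 hn).1, ((hmem n).1 hn).2.1⟩) ?_
  intro y hy i P hi hP hlt
  refine hpat N A' ?_ ?_ y hy ((hmem y).1 hy).1 i P hi hP hlt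
  · intro m n hm _ hn1 hnN hr
    rw [hmem] at hm ⊢
    exact ⟨hn1, hnN, hX m n hr hm.2.2⟩
  · intro x hx y hy n hn hxy
    have h1 : (x : ℤ) - y ∈ ((A : Set ℤ) - (A : Set ℤ)) ∩
        {m : ℤ | ∃ n : ℕ, 1 ≤ n ∧ h.eval (n : ℤ) = m} :=
      ⟨Set.sub_mem_sub hx hy, n, hn, hxy⟩
    have h2 := hfree h1
    rw [hxy]
    exact h2

/-- **Regular sequences of polylogarithmic growth**, arbitrary conditions, `h` with an integer
root. -/
theorem saving_regular (h : ℤ[X]) (hd : 1 ≤ h.natDegree) (z : ℤ) (hz : h.eval z = 0) {b r : ℕ}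
    (hb : 2 ≤ b) (f : ℕ → Fin r → ℤ)
    (hf : (Submodule.span ℤ (Vale.Agent.P042.H499.kernelSet b f)).FG) (C c : ℕ)
    (hg : ∀ (n : ℕ) (i : Fin r), |f n i| ≤ C * ((Nat.log b n : ℤ) + 1) ^ c) :
    ∃ θ K : ℝ, 0 < θ ∧ θ < 1 ∧ 0 < K ∧
      ∀ (S : Set (Fin r → ℤ)) (N : ℕ) (A : Finset ℤ), 1 ≤ N →
        (∀ a : ℤ, a ∈ A ↔ 1 ≤ a ∧ a ≤ N ∧ f a.toNat ∈ S) →
          DiffFree h A → (A.card : ℝ) ≤ K * (N : ℝ) ^ θ := by
  obtain ⟨n, M, Φ, C', c', hM, hfM⟩ := Vale.Agent.P042.H499.reg_mat hb f hf C c hg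
  obtain ⟨R, _, I, _, x, ⟨d, hI⟩, hfin, hval⟩ :=
    Vale.Agent.P057.R3.H664.mat_ring_of Vale.Agent.P057.R3.H244.tr_bound
      Vale.Agent.P057.R3.H244.tr_nil Vale.Agent.P057.R3.H244.nil_ideal M C' c' hM
  obtain ⟨θ, K, h0, h1, h2, h3⟩ := saving_words h hd z hz hb
    (Vale.Agent.P057.R3.H664.val_cong x)
    (fun k g₀ m => Vale.Agent.P057.R3.H664.ring_poly_words I hI hb x hfin k g₀ m)
  refine ⟨θ, K, h0, h1, h2, fun S N A hN hA hfree => ?_⟩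
  refine h3 {n | f n ∈ S} ?_ N A hN hA hfree
  intro m n hmn hm
  have e1 := hval _ _ (fun d hd => Nat.digits_lt_base (by omega) hd)
    (fun d hd => Nat.digits_lt_base (by omega) hd) hmn
  have e2 := hfM (Nat.digits b m) (fun d hd => Nat.digits_lt_base (by omega) hd)
  have e3 := hfM (Nat.digits b n) (fun d hd => Nat.digits_lt_base (by omega) hd)
  rw [Nat.ofDigits_digits] at e2 e3
  rw [Set.mem_ofPred_eq, e3, ← e1, ← e2]
  exact hm

end Vale.Agent.P042.H886
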