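import Vale.Agent.P042.R2.H886.Types

set_option autoImplicit false

/-!
P042: relative form of the type lemma (after an idea of helper499).
-/

namespace Vale.Agent.P042.H886

open Polynomial Pointwise

theorem good_card' {D Y : Type} [Fintype D] (f : D → Y) (P : ℕ) (ρ : ℝ) (hρ : 0 ≤ ρ)
    (hP : (Set.range f).ncard ≤ P) :
    ({d : D | (({d' | f d' = f d}.ncard : ℕ) : ℝ) ≤ ρ}.ncard : ℝ) ≤ P * ρ := by
  have h1 := good_card f P ⌊ρ⌋₊ hP
  have h2 : {d : D | (({d' | f d' = f d}.ncard : ℕ) : ℝ) ≤ ρ} =
      {d : D | {d' | f d' = f d}.ncard ≤ ⌊ρ⌋₊} := by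
    ext d
    rw [Set.mem_ofPred_eq, Set.mem_ofPred_eq, Nat.le_floor_iff hρ]
  rw [h2]
  calc _ ≤ ((P * ⌊ρ⌋₊ : ℕ) : ℝ) := by exact_mod_cast h1
    _ = (P : ℝ) * (⌊ρ⌋₊ : ℝ) := by push_cast; ring
    _ ≤ P * ρ := mul_le_mul_of_nonneg_left (Nat.floor_le hρ) (Nat.cast_nonneg _)

theorem update_eq_of {T : ℕ} {D : Type} {x y : Fin T → D} {i : Fin T}
    (h : ∀ j, j ≠ i → x j = y j) : x = Function.update y i (x i) := by
  funext j
  by_cases hj : j = i
  · subst hj; simp
  · rw [Function.update_of_ne hj, h j hj]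

/-- One place: `A'` has small density in the part of `A` where the type of the digit is large. -/
theorem rel_one {T : ℕ} {D : Type} [Fintype D] (A A' : Set (Fin T → D)) (i : Fin T)
    (r : ℕ) (ε : ℝ) (hε : 0 < ε) (L : Finset (Fin T → D))
    (_hLA : ∀ x ∈ L, x ∈ A)
    (hL : ∀ x ∈ L, ∀ d : D, {z : Fin T → D | Function.update z i d ∈ A} =
      {z : Fin T → D | Function.update z i (x i) ∈ A} → Function.update x i d ∈ L)
    (hbig : ∀ x ∈ L, (r : ℝ) ≤ ε * (({d : D | {z : Fin T → D | Function.update z i d ∈ A} =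
      {z : Fin T → D | Function.update z i (x i) ∈ A}}.ncard : ℕ) : ℝ))
    (hfree : ∀ (x : Fin T → D) (τ : Set D), x ∈ A' →
      (∀ d ∈ τ, Function.update x i d ∈ A') → τ.ncard ≤ r) (L' : Finset (Fin T → D))
    (hL' : L' ⊆ L) (hLA' : ∀ x ∈ L', x ∈ A') :
    (L'.card : ℝ) ≤ ε * L.card := by
  classical
  set f : D → Set (Fin T → D) := fun d => {z : Fin T → D | Function.update z i d ∈ A} with hf
  set g : (Fin T → D) → ((Fin T → Option D) × Set (Fin T → D)) := fun x =>
    (fun j => if j = i then none else some (x j), f (x i)) with hg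
  have hgi : ∀ x y : Fin T → D, g x = g y → (∀ j, j ≠ i → x j = y j) ∧ f (x i) = f (y i) := by
    intro x y hxy
    rw [hg, Prod.mk.injEq] at hxy
    refine ⟨fun j hj => ?_, hxy.2⟩
    have := congrFun hxy.1 j
    simpa [hj] using this
  have h1 : L'.card = ∑ y ∈ L'.image g, (L'.filter fun x => g x = y).card :=
    Finset.card_eq_sum_card_image g L'
  have h2 : L.card = ∑ y ∈ L.image g, (L.filter fun x => g x = y).card :=
    Finset.card_eq_sum_card_image g L
  have h3 : ∑ y ∈ L'.image g, (L.filter fun x => g x = y).card ≤ L.card := by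
    rw [h2]
    exact Finset.sum_le_sum_of_subset (Finset.image_subset_image hL')
  have h4 : ∀ y ∈ L'.image g, ((L'.filter fun x => g x = y).card : ℝ) ≤
      ε * ((L.filter fun x => g x = y).card : ℝ) := by
    intro y hy
    obtain ⟨x₀, hx₀, rfl⟩ := Finset.mem_image.1 hy
    -- the fibre of `A'`
    have a1 : (L'.filter fun x => g x = g x₀).card ≤ r := by
      have b1 := hfree x₀ {d | Function.update x₀ i d ∈ A'} (hLA' _ hx₀) (fun d hd => hd)
      refine le_trans ?_ b1
      have b2 : (L'.filter fun x => g x = g x₀).card =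
          ((L'.filter fun x => g x = g x₀).image fun x => x i).card := by
        rw [Finset.card_image_of_injOn]
        intro x hx y hy hxy
        rw [Finset.mem_coe, Finset.mem_filter] at hx hy
        have c1 := update_eq_of (hgi _ _ hx.2).1
        have c2 := update_eq_of (hgi _ _ hy.2).1
        have hxy' : x i = y i := hxy
        rw [c1, c2, hxy']
      rw [b2, ← Set.ncard_coe_finset]
      apply Set.ncard_le_ncard _ (Set.toFinite _)
      intro d hd
      rw [Finset.mem_coe, Finset.mem_image] at hd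
      obtain ⟨x, hx, rfl⟩ := hd
      rw [Finset.mem_filter] at hx
      rw [Set.mem_ofPred_eq, ← update_eq_of (hgi _ _ hx.2).1]
      exact hLA' _ hx.1
    have a2 : {d : D | f d = f (x₀ i)}.ncard ≤ (L.filter fun x => g x = g x₀).card := by
      have b3 : Set.InjOn (fun d => Function.update x₀ i d) {d : D | f d = f (x₀ i)} := by
        intro d _ d' _ hdd
        have := congrFun hdd i
        simpa using this
      rw [← b3.ncard_image, ← Set.ncard_coe_finset]
      apply Set.ncard_le_ncard _ (Set.toFinite _)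
      rintro _ ⟨d, hd, rfl⟩
      rw [Finset.mem_coe, Finset.mem_filter]
      refine ⟨hL _ (hL' hx₀) d hd, ?_⟩
      rw [hg]
      simp only [Prod.mk.injEq, Function.update_self]
      refine ⟨?_, hd⟩
      funext j
      by_cases hj : j = i
      · simp [hj]
      · simp [hj]
    have a3 := hbig x₀ (hL' hx₀)
    calc ((L'.filter fun x => g x = g x₀).card : ℝ) ≤ r := by exact_mod_cast a1
      _ ≤ ε * (({d : D | f d = f (x₀ i)}.ncard : ℕ) : ℝ) := a3
      _ ≤ _ := mul_le_mul_of_nonneg_left (by exact_mod_cast a2) hε.le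
  calc (L'.card : ℝ) = ∑ y ∈ L'.image g, ((L'.filter fun x => g x = y).card : ℝ) := by
        rw [h1]; push_cast; rfl
    _ ≤ ∑ y ∈ L'.image g, ε * ((L.filter fun x => g x = y).card : ℝ) := Finset.sum_le_sum h4
    _ = ε * ((∑ y ∈ L'.image g, (L.filter fun x => g x = y).card : ℕ) : ℝ) := by
        rw [← Finset.mul_sum]; push_cast; rfl
    _ ≤ ε * L.card := mul_le_mul_of_nonneg_left (by exact_mod_cast h3) hε.le

/-- The abstract relative type lemma. -/
theorem rel_type_card {T : ℕ} {D : Type} [Fintype D] (A A' : Set (Fin T → D)) (hAA : A' ⊆ A)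
    (r : ℕ) (P : Fin T → ℕ) (ε : ℝ) (hε : 0 < ε)
    (hP : ∀ i, (Set.range fun d : D =>
      {x : Fin T → D | Function.update x i d ∈ A}).ncard ≤ P i)
    (hfree : ∀ (i : Fin T) (x : Fin T → D) (τ : Set D), x ∈ A' →
      (∀ d ∈ τ, Function.update x i d ∈ A') → τ.ncard ≤ r) :
    (A'.ncard : ℝ) ≤ ε * A.ncard + ∏ i, min (Fintype.card D : ℝ) (P i * (r / ε)) := by
  classical
  set f : (i : Fin T) → D → Set (Fin T → D) := fun i d =>
    {x : Fin T → D | Function.update x i d ∈ A} with hf
  set G : Fin T → Finset D := fun i =>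
    Finset.univ.filter fun d : D => (({d' | f i d' = f i d}.ncard : ℕ) : ℝ) ≤ r / ε with hG
  set L : Fin T → Finset (Fin T → D) := fun i =>
    Finset.univ.filter fun x => x ∈ A ∧ (∀ j, j < i → x j ∈ G j) ∧ x i ∉ G i with hL
  set Af : Finset (Fin T → D) := Finset.univ.filter fun x => x ∈ A with hAf
  set Af' : Finset (Fin T → D) := Finset.univ.filter fun x => x ∈ A' with hAf'
  have hρ : 0 ≤ (r : ℝ) / ε := by positivity
  have hone : ∀ i, (((L i).filter fun x => x ∈ A').card : ℝ) ≤ ε * (L i).card := by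
    intro i
    refine rel_one A A' i r ε hε (L i) (fun x hx => (Finset.mem_filter.1 hx).2.1) ?_ ?_
      (hfree i) _ (Finset.filter_subset _ _) (fun x hx => (Finset.mem_filter.1 hx).2)
    · intro x hx d hd
      rw [hL, Finset.mem_filter] at hx ⊢
      obtain ⟨_, h1, h2, h3⟩ := hx
      refine ⟨Finset.mem_univ _, ?_, ?_, ?_⟩
      · have : x ∈ f i (x i) := by
          change Function.update x i (x i) ∈ A
          rwa [Function.update_eq_self]
        have h4 : f i d = f i (x i) := hd
        rw [← h4] at this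
        exact this
      · intro j hj
        rw [Function.update_of_ne (ne_of_lt hj)]
        exact h2 j hj
      · rw [Function.update_self]
        intro h5
        apply h3
        rw [hG, Finset.mem_filter] at h5 ⊢
        refine ⟨Finset.mem_univ _, ?_⟩
        have h4 : f i d = f i (x i) := hd
        rw [← h4]
        exact h5.2
    · intro x hx
      rw [hL, Finset.mem_filter] at hx
      have h3 := hx.2.2.2
      rw [hG, Finset.mem_filter, not_and] at h3
      have h4 := not_le.1 (h3 (Finset.mem_univ _))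
      rw [div_lt_iff₀ hε] at h4
      rw [mul_comm]
      exact h4.le
  have hdisj : ∀ i j, i ≠ j → Disjoint (L i) (L j) := by
    have key : ∀ i j, i < j → Disjoint (L i) (L j) := by
      intro i j hij
      rw [Finset.disjoint_left]
      intro x hx hx'
      rw [hL, Finset.mem_filter] at hx hx'
      exact hx.2.2.2 (hx'.2.2.1 i hij)
    intro i j hij
    rcases lt_or_gt_of_ne hij with h | h
    · exact key i j h
    · exact (key j i h).symm
  have hsumL : ∑ i, (L i).card ≤ Af.card := by
    rw [← Finset.card_biUnion (fun i _ j _ hij => hdisj i j hij)]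
    apply Finset.card_le_card
    intro x hx
    rw [Finset.mem_biUnion] at hx
    obtain ⟨i, _, hx⟩ := hx
    rw [hL, Finset.mem_filter] at hx
    rw [hAf, Finset.mem_filter]
    exact ⟨Finset.mem_univ _, hx.2.1⟩
  have hcover : Af' ⊆ (Finset.univ.biUnion fun i => (L i).filter fun x => x ∈ A') ∪
      Fintype.piFinset G := by
    intro x hx
    rw [hAf', Finset.mem_filter] at hx
    by_cases hall : ∀ i, x i ∈ G i
    · exact Finset.mem_union_right _ (Fintype.mem_piFinset.2 hall)
    · push Not at hall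
      obtain ⟨m, hm, hmin⟩ := WellFounded.has_min (wellFounded_lt (α := Fin T))
        {i | x i ∉ G i} hall
      refine Finset.mem_union_left _ (Finset.mem_biUnion.2 ⟨m, Finset.mem_univ _, ?_⟩)
      rw [Finset.mem_filter, hL, Finset.mem_filter]
      refine ⟨⟨Finset.mem_univ _, hAA hx.2, fun j hj => ?_, hm⟩, hx.2⟩
      by_contra hcon
      exact hmin j hcon hj
  have hcardA : A.ncard = Af.card := by
    rw [hAf, ← Set.ncard_coe_finset]; congr 1; ext x; simp
  have hcardA' : A'.ncard = Af'.card := by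
    rw [hAf', ← Set.ncard_coe_finset]; congr 1; ext x; simp
  have hprod : ((Fintype.piFinset G).card : ℝ) ≤
      ∏ i, min (Fintype.card D : ℝ) (P i * (r / ε)) := by
    rw [Fintype.card_piFinset]
    push_cast
    apply Finset.prod_le_prod (fun i _ => Nat.cast_nonneg _)
    intro i _
    refine le_min (by exact_mod_cast Finset.card_le_univ _) ?_
    have h1 := good_card' (f i) (P i) (r / ε) hρ (hP i)
    have h3 : {d : D | (({d' | f i d' = f i d}.ncard : ℕ) : ℝ) ≤ r / ε} =
        ((G i : Finset D) : Set D) := by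
      ext d; simp [hG]
    rwa [h3, Set.ncard_coe_finset] at h1
  rw [hcardA', hcardA]
  have h5 : (Af'.card : ℝ) ≤ ((Finset.univ.biUnion fun i => (L i).filter fun x => x ∈ A').card : ℝ)
      + ((Fintype.piFinset G).card : ℝ) := by
    exact_mod_cast (Finset.card_le_card hcover).trans (Finset.card_union_le _ _)
  have h6 : ((Finset.univ.biUnion fun i => (L i).filter fun x => x ∈ A').card : ℝ) ≤
      ∑ i, (((L i).filter fun x => x ∈ A').card : ℝ) := by
    exact_mod_cast Finset.card_biUnion_le
  have h7 : ∑ i, (((L i).filter fun x => x ∈ A').card : ℝ) ≤ ∑ i, ε * ((L i).card : ℝ) :=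
    Finset.sum_le_sum fun i _ => hone i
  have h8 : ∑ i, ε * ((L i).card : ℝ) ≤ ε * Af.card := by
    rw [← Finset.mul_sum]
    refine mul_le_mul_of_nonneg_left ?_ hε.le
    exact_mod_cast hsumL
  linarith

/-- **Relative type lemma.** -/
theorem rel_type_lemma (a : ℤ) (k m T : ℕ) (hm : 1 ≤ m) (A A' : Finset ℤ)
    (hA : ∀ n ∈ A, 0 ≤ n ∧ n < (((m ^ k) ^ T : ℕ) : ℤ)) (hsub : A' ⊆ A)
    (hfree : DiffFree (C a * X ^ k) A') (ε : ℝ) (hε : 0 < ε) :
    (A'.card : ℝ) ≤ ε * A.card + ∏ i : Fin T,
      min ((m ^ k : ℕ) : ℝ) (types (m ^ k) A i * (rMax (C a * X ^ k) (m ^ k) / ε)) := by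
  classical
  set s := m ^ k with hs
  set Ah : Set (Fin T → Fin s) := {x | (num x : ℤ) ∈ A} with hAh
  set Ah' : Set (Fin T → Fin s) := {x | (num x : ℤ) ∈ A'} with hAh'
  have himg : ∀ B : Finset ℤ, B ⊆ A →
      (B : Set ℤ) = (fun x : Fin T → Fin s => (num x : ℤ)) '' {x | (num x : ℤ) ∈ B} := by
    intro B hB
    ext n
    constructor
    · intro hn
      have h1 := hA n (hB hn)
      obtain ⟨x, hx⟩ := exists_num (T := T) (s := s) (n := n.toNat) (by omega)
      have h2 : (num x : ℤ) = n := by rw [hx]; omega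
      exact ⟨x, by rw [Set.mem_ofPred_eq, h2]; exact hn, h2⟩
    · rintro ⟨x, hx, rfl⟩
      exact hx
  have hinj : Function.Injective (fun x : Fin T → Fin s => (num x : ℤ)) :=
    fun x y hxy => num_injective (Nat.cast_injective hxy)
  have hcard : A.card = Ah.ncard := by
    rw [← Set.ncard_coe_finset, himg A subset_rfl, Set.ncard_image_of_injective _ hinj]
  have hcard' : A'.card = Ah'.ncard := by
    rw [← Set.ncard_coe_finset, himg A' hsub, Set.ncard_image_of_injective _ hinj]
  rw [hcard, hcard']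
  have h1 := rel_type_card Ah Ah' (fun x hx => hsub hx) (rMax (C a * X ^ k) s)
    (fun i => types s A i) ε hε (fun i => le_refl _) ?_
  · simpa using h1
  · intro i x τ hx hτ
    -- the values `d + 1`
    have hinj2 : Function.Injective (fun d : Fin s => ((d : ℕ) : ℤ) + 1) := by
      intro d d' hdd
      apply Fin.ext
      have : ((d : ℕ) : ℤ) + 1 = ((d' : ℕ) : ℤ) + 1 := hdd
      omega
    have hc : τ.ncard = (τ.toFinset.image fun d : Fin s => ((d : ℕ) : ℤ) + 1).card := by
      rw [Finset.card_image_of_injective _ hinj2, Set.ncard_eq_toFinset_card']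
    rw [hc]
    apply card_le_rMax
    · intro n hn
      rw [Finset.mem_image] at hn
      obtain ⟨d, _, rfl⟩ := hn
      have := d.isLt
      rw [Finset.mem_Icc]
      omega
    · rintro n ⟨⟨u, hu, v, hv, rfl⟩, t, ht, hte⟩
      rw [Finset.mem_coe, Finset.mem_image] at hu hv
      obtain ⟨d, hd, rfl⟩ := hu
      obtain ⟨d', hd', rfl⟩ := hv
      rw [Set.mem_toFinset] at hd hd'
      have e1 := hτ d hd
      have e2 := hτ d' hd'
      rw [eval_monomial'] at hte
      have hpow : ((s : ℕ) : ℤ) ^ (i : ℕ) = ((m : ℤ) ^ (i : ℕ)) ^ k := by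
        rw [hs]
        push_cast
        rw [← pow_mul, ← pow_mul, mul_comm]
      have hmem : (num (Function.update x i d) : ℤ) - num (Function.update x i d') ∈
          ((A' : Set ℤ) - (A' : Set ℤ)) ∩
            {m : ℤ | ∃ n : ℕ, 1 ≤ n ∧ (C a * X ^ k : ℤ[X]).eval (n : ℤ) = m} := by
        refine ⟨Set.sub_mem_sub e1 e2, t * m ^ (i : ℕ), Nat.mul_pos ht (Nat.pow_pos hm), ?_⟩
        rw [eval_monomial', num_update, num_update, hpow]
        push_cast
        rw [mul_pow, ← mul_assoc, hte]
        ring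
      have h0 := hfree hmem
      rw [Set.mem_singleton_iff, num_update, num_update] at h0
      have h3 : (((d : ℕ) : ℤ) - ((d' : ℕ) : ℤ)) * (s : ℤ) ^ (i : ℕ) = 0 := by
        linear_combination h0
      have hs0 : ((s : ℕ) : ℤ) ^ (i : ℕ) ≠ 0 := by
        rw [hpow]
        have : (0 : ℤ) < m := by exact_mod_cast hm
        positivity
      have h4 := (mul_eq_zero.1 h3).resolve_right hs0
      rw [Set.mem_singleton_iff]
      linear_combination h4

end Vale.Agent.P042.H886
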