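import Vale.Agent.P042.Defs
import Mathlib

set_option autoImplicit false

/-!
P042: sets avoiding `a n ^ k` and the number of types of their digits.
-/

namespace Vale.Agent.P042.H886

open Polynomial Pointwise

/-- The digits whose type (fibre of `f`) has at most `r` elements. -/
theorem good_card {D Y : Type} [Fintype D] (f : D → Y) (P r : ℕ)
    (hP : (Set.range f).ncard ≤ P) :
    {d : D | {d' | f d' = f d}.ncard ≤ r}.ncard ≤ P * r := by
  classical
  have h1 := Finset.card_le_mul_card_image (f := f)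
    (Finset.univ.filter fun d : D => {d' | f d' = f d}.ncard ≤ r) r (by
      intro y hy
      rw [Finset.mem_image] at hy
      obtain ⟨d, hd, rfl⟩ := hy
      rw [Finset.mem_filter] at hd
      refine le_trans ?_ hd.2
      rw [← Set.ncard_coe_finset]
      apply Set.ncard_le_ncard _ (Set.toFinite _)
      intro d' hd'
      simp only [Finset.coe_filter, Finset.mem_filter, Set.mem_ofPred_eq] at hd'
      exact hd'.2)
  have h2 : ((Finset.univ.filter fun d : D => {d' | f d' = f d}.ncard ≤ r).image f).card ≤ P := by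
    refine le_trans ?_ hP
    rw [← Set.ncard_coe_finset]
    apply Set.ncard_le_ncard _ (Set.toFinite _)
    intro y hy
    rw [Finset.coe_image] at hy
    obtain ⟨d, _, rfl⟩ := hy
    exact ⟨d, rfl⟩
  have h3 : {d : D | {d' | f d' = f d}.ncard ≤ r} =
      ((Finset.univ.filter fun d : D => {d' | f d' = f d}.ncard ≤ r : Finset D) : Set D) := by
    ext d; simp
  rw [h3, Set.ncard_coe_finset]
  calc _ ≤ r * _ := h1
    _ ≤ r * P := Nat.mul_le_mul_left _ h2
    _ = P * r := mul_comm _ _

/-- The abstract type lemma. -/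
theorem type_card {T : ℕ} {D : Type} [Fintype D] (A : Set (Fin T → D)) (r : ℕ) (P : Fin T → ℕ)
    (hP : ∀ i, (Set.range fun d : D =>
      {x : Fin T → D | Function.update x i d ∈ A}).ncard ≤ P i)
    (hfree : ∀ (i : Fin T) (x : Fin T → D) (τ : Set D), x ∈ A →
      (∀ d ∈ τ, Function.update x i d ∈ A) → τ.ncard ≤ r) :
    A.ncard ≤ ∏ i, min (Fintype.card D) (P i * r) := by
  classical
  set f : (i : Fin T) → D → Set (Fin T → D) := fun i d =>
    {x : Fin T → D | Function.update x i d ∈ A} with hf
  set G : Fin T → Finset D := fun i =>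
    Finset.univ.filter fun d : D => {d' | f i d' = f i d}.ncard ≤ r with hG
  have hsub : A ⊆ (Fintype.piFinset G : Set (Fin T → D)) := by
    intro x hx
    rw [Finset.mem_coe, Fintype.mem_piFinset]
    intro i
    rw [hG, Finset.mem_filter]
    refine ⟨Finset.mem_univ _, hfree i x _ hx ?_⟩
    intro d hd
    have h1 : x ∈ f i (x i) := by
      change Function.update x i (x i) ∈ A
      rwa [Function.update_eq_self]
    have h2 : f i d = f i (x i) := hd
    rw [← h2] at h1
    exact h1
  calc A.ncard ≤ (Fintype.piFinset G : Set (Fin T → D)).ncard :=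
        Set.ncard_le_ncard hsub (Set.toFinite _)
    _ = ∏ i, (G i).card := by rw [Set.ncard_coe_finset, Fintype.card_piFinset]
    _ ≤ ∏ i, min (Fintype.card D) (P i * r) := by
        apply Finset.prod_le_prod' 
        intro i _
        refine le_min (Finset.card_le_univ _) ?_
        have h1 := good_card (f i) (P i) r (hP i)
        have h3 : {d : D | {d' | f i d' = f i d}.ncard ≤ r} = ((G i : Finset D) : Set D) := by
          ext d; simp [hG]
        rwa [h3, Set.ncard_coe_finset] at h1

/-- The number with the base `s` digits `x`. -/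
def num {T s : ℕ} (x : Fin T → Fin s) : ℕ := ∑ i, (x i : ℕ) * s ^ (i : ℕ)

theorem num_eq {T s : ℕ} (x : Fin T → Fin s) : num x = (finFunctionFinEquiv x : ℕ) := by
  rw [num, finFunctionFinEquiv_apply]

theorem num_injective {T s : ℕ} : Function.Injective (num : (Fin T → Fin s) → ℕ) := by
  intro x y hxy
  rw [num_eq, num_eq] at hxy
  exact finFunctionFinEquiv.injective (Fin.ext hxy)

theorem exists_num {T s n : ℕ} (hn : n < s ^ T) : ∃ x : Fin T → Fin s, num x = n :=
  ⟨finFunctionFinEquiv.symm ⟨n, hn⟩, by rw [num_eq, Equiv.apply_symm_apply]⟩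

theorem num_update {T s : ℕ} (x : Fin T → Fin s) (i : Fin T) (d : Fin s) :
    (num (Function.update x i d) : ℤ) = num x + ((d : ℤ) - (x i : ℤ)) * (s : ℤ) ^ (i : ℕ) := by
  classical
  rw [num, num, Nat.cast_sum, Nat.cast_sum,
    ← Finset.add_sum_erase _ _ (Finset.mem_univ i),
    ← Finset.add_sum_erase (Finset.univ) (fun j => (((x j : ℕ) * s ^ (j : ℕ) : ℕ) : ℤ))
      (Finset.mem_univ i)]
  have h1 : ∑ j ∈ Finset.univ.erase i, (((Function.update x i d j : Fin s) : ℕ) * s ^ (j : ℕ) : ℕ)
      = ∑ j ∈ Finset.univ.erase i, ((x j : ℕ) * s ^ (j : ℕ)) := by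
    refine Finset.sum_congr rfl fun j hj => ?_
    rw [Function.update_of_ne (Finset.ne_of_mem_erase hj)]
  have h2 : ∑ j ∈ Finset.univ.erase i,
      ((((Function.update x i d j : Fin s) : ℕ) * s ^ (j : ℕ) : ℕ) : ℤ)
      = ∑ j ∈ Finset.univ.erase i, (((x j : ℕ) * s ^ (j : ℕ) : ℕ) : ℤ) := by
    exact_mod_cast h1
  rw [h2, Function.update_self]
  push_cast
  ring

/-- The number of types of the `i`-th base `s` digit: `d` and `d'` have the same type if every
number keeps its membership in `A` when the digit `d` is replaced by `d'`. -/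
noncomputable def types {T : ℕ} (s : ℕ) (A : Finset ℤ) (i : Fin T) : ℕ :=
  (Set.range fun d : Fin s =>
    {x : Fin T → Fin s | (num (Function.update x i d) : ℤ) ∈ A}).ncard

theorem eval_monomial' (a : ℤ) (k : ℕ) (t : ℤ) : (C a * X ^ k : ℤ[X]).eval t = a * t ^ k := by
  simp

theorem card_le_rMax {h : ℤ[X]} {N : ℕ} {A : Finset ℤ} (hA : A ⊆ Finset.Icc 1 (N : ℤ))
    (hf : DiffFree h A) : A.card ≤ rMax h N := by
  classical
  unfold rMax
  exact Finset.le_sup (f := Finset.card)
    (Finset.mem_filter.2 ⟨Finset.mem_powerset.2 hA, hf⟩)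

/-- **Type lemma.** -/
theorem type_lemma (a : ℤ) (k m T : ℕ) (hm : 1 ≤ m) (A : Finset ℤ)
    (hA : ∀ n ∈ A, 0 ≤ n ∧ n < (((m ^ k) ^ T : ℕ) : ℤ)) (hfree : DiffFree (C a * X ^ k) A) :
    A.card ≤ ∏ i : Fin T, min (m ^ k) (types (m ^ k) A i * rMax (C a * X ^ k) (m ^ k)) := by
  classical
  set s := m ^ k with hs
  set Ah : Set (Fin T → Fin s) := {x | (num x : ℤ) ∈ A} with hAh
  have himg : (A : Set ℤ) = (fun x : Fin T → Fin s => (num x : ℤ)) '' Ah := by
    ext n
    constructor
    · intro hn
      have h1 := hA n hn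
      obtain ⟨x, hx⟩ := exists_num (T := T) (s := s) (n := n.toNat) (by omega)
      have h2 : (num x : ℤ) = n := by rw [hx]; omega
      exact ⟨x, by rw [hAh, Set.mem_ofPred_eq, h2]; exact hn, h2⟩
    · rintro ⟨x, hx, rfl⟩
      exact hx
  have hinj : Function.Injective (fun x : Fin T → Fin s => (num x : ℤ)) :=
    fun x y hxy => num_injective (Nat.cast_injective hxy)
  have hcard : A.card = Ah.ncard := by
    rw [← Set.ncard_coe_finset, himg, Set.ncard_image_of_injective _ hinj]
  rw [hcard]
  have h1 := type_card Ah (rMax (C a * X ^ k) s) (fun i => types s A i) (fun i => le_refl _) ?_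
  · simpa using h1
  · intro i x τ hx hτ
    -- the values `d + 1`
    have hinj2 : Function.Injective (fun d : Fin s => ((d : ℕ) : ℤ) + 1) := by
      intro d d' hdd
      apply Fin.ext
      have : ((d : ℕ) : ℤ) + 1 = ((d' : ℕ) : ℤ) + 1 := hdd
      omega
    have hc : τ.ncard = (τ.toFinset.image fun d : Fin s => ((d : ℕ) : ℤ) + 1).card := by
      rw [Finset.card_image_of_injective _ hinj2, Set.ncard_eq_toFinset_card']
    rw [hc]
    apply card_le_rMax
    · intro n hn
      rw [Finset.mem_image] at hn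
      obtain ⟨d, _, rfl⟩ := hn
      have := d.isLt
      rw [Finset.mem_Icc]
      omega
    · rintro n ⟨⟨u, hu, v, hv, rfl⟩, t, ht, hte⟩
      rw [Finset.mem_coe, Finset.mem_image] at hu hv
      obtain ⟨d, hd, rfl⟩ := hu
      obtain ⟨d', hd', rfl⟩ := hv
      rw [Set.mem_toFinset] at hd hd'
      have e1 := hτ d hd
      have e2 := hτ d' hd'
      rw [eval_monomial'] at hte
      have hpow : ((s : ℕ) : ℤ) ^ (i : ℕ) = ((m : ℤ) ^ (i : ℕ)) ^ k := by
        rw [hs]
        push_cast
        rw [← pow_mul, ← pow_mul, mul_comm]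
      have hmem : (num (Function.update x i d) : ℤ) - num (Function.update x i d') ∈
          ((A : Set ℤ) - (A : Set ℤ)) ∩
            {m : ℤ | ∃ n : ℕ, 1 ≤ n ∧ (C a * X ^ k : ℤ[X]).eval (n : ℤ) = m} := by
        refine ⟨Set.sub_mem_sub e1 e2, t * m ^ (i : ℕ), Nat.mul_pos ht (Nat.pow_pos hm), ?_⟩
        rw [eval_monomial', num_update, num_update, hpow]
        push_cast
        rw [mul_pow, ← mul_assoc, hte]
        ring
      have h0 := hfree hmem
      rw [Set.mem_singleton_iff, num_update, num_update] at h0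
      have h3 : (((d : ℕ) : ℤ) - ((d' : ℕ) : ℤ)) * (s : ℤ) ^ (i : ℕ) = 0 := by
        linear_combination h0
      have hs0 : ((s : ℕ) : ℤ) ^ (i : ℕ) ≠ 0 := by
        rw [hpow]
        have : (0 : ℤ) < m := by exact_mod_cast hm
        positivity
      have h4 := (mul_eq_zero.1 h3).resolve_right hs0
      rw [Set.mem_singleton_iff]
      linear_combination h4

end Vale.Agent.P042.H886
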