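import Vale.Agent.P057.R3.H380.Core

set_option autoImplicit false

/-!
P042, digit statistics: equivalent words whose values differ by `g * c ^ j`.
-/

namespace Vale.Agent.P042.H886

open Vale.Agent.P057.H380

/-- Value of a list of integer digits in base `B`. -/
def ev (B : ℤ) : List ℤ → ℤ
  | [] => 0
  | a :: q => a + B * ev B q

theorem ev_append (B : ℤ) (p q : List ℤ) : ev B (p ++ q) = ev B p + B ^ p.length * ev B q := by
  induction p with
  | nil => simp [ev]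
  | cons a p ih => simp only [List.cons_append, ev, ih, List.length_cons]; ring

theorem ev_affine (B a s : ℤ) (q : List ℤ) :
    ev B (q.map fun t => a + s * t) * (B - 1) = a * (B ^ q.length - 1) + s * (B - 1) * ev B q := by
  induction q with
  | nil => simp [ev]
  | cons t q ih =>
    simp only [List.map_cons, ev, List.length_cons]
    have : B * (ev B (q.map fun t => a + s * t) * (B - 1)) =
      B * (a * (B ^ q.length - 1) + s * (B - 1) * ev B q) := by rw [ih]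
    linear_combination this

/-- Multiplication by `B - 1` on digits, with `a` added. -/
def step : ℤ → List ℤ → List ℤ
  | a, [] => [a]
  | a, x :: q => (a - x) :: step x q

theorem ev_step (B a : ℤ) (q : List ℤ) : ev B (step a q) = a + (B - 1) * ev B q := by
  induction q generalizing a with
  | nil => simp [step, ev]
  | cons x q ih => simp only [step, ev, ih]; ring

theorem step_length (a : ℤ) (q : List ℤ) : (step a q).length = q.length + 1 := by
  induction q generalizing a with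
  | nil => simp [step]
  | cons x q ih => simp [step, ih]

theorem step_bound (M : ℤ) (a : ℤ) (q : List ℤ) (ha : |a| ≤ M) (hq : ∀ x ∈ q, |x| ≤ M) :
    ∀ x ∈ step a q, |x| ≤ 2 * M := by
  have hM : 0 ≤ M := (abs_nonneg a).trans ha
  induction q generalizing a with
  | nil =>
    intro x hx
    simp only [step, List.mem_singleton] at hx
    rw [hx]
    linarith
  | cons y q ih =>
    intro x hx
    simp only [step, List.mem_cons] at hx
    rcases hx with hx | hx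
    · rw [hx]
      have := hq y (by simp)
      calc |a - y| ≤ |a| + |y| := abs_sub _ _
        _ ≤ 2 * M := by linarith
    · exact ih y (hq y (by simp)) (fun z hz => hq z (by simp [hz])) x hx

theorem exists_pow_list (B : ℤ) (d : ℕ) : ∃ q : List ℤ, q.length = d + 1 ∧
    (∀ x ∈ q, |x| ≤ 2 ^ d) ∧ ev B q = (B - 1) ^ d := by
  induction d with
  | zero => exact ⟨[1], by simp, by simp, by simp [ev]⟩
  | succ d ih =>
    obtain ⟨q, h1, h2, h3⟩ := ih
    refine ⟨step 0 q, by rw [step_length, h1], ?_, ?_⟩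
    · intro x hx
      have := step_bound (2 ^ d) 0 q (by simp) h2 x hx
      rw [pow_succ]
      linarith
    · rw [ev_step, h3]
      ring

theorem pw_val' {b : ℕ} (e : List ℕ) (l N : ℕ) :
    ∃ c K : ℕ, (K : ℤ) * ((b : ℤ) ^ (e.length + l + e.length) - 1) =
        (b : ℤ) ^ e.length * ((b : ℤ) ^ (N * (e.length + l + e.length)) - 1) ∧
      ∀ u : List ℕ, u.length = l → Nat.ofDigits b (pw e N u) = c + K * Nat.ofDigits b u := by
  induction N with
  | zero => exact ⟨0, 0, by simp, fun u _ => by simp [pw_zero]⟩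
  | succ N ih =>
    obtain ⟨c, K, h0, h⟩ := ih
    refine ⟨Nat.ofDigits b e + b ^ (e.length + l) * Nat.ofDigits b e +
      b ^ (e.length + l + e.length) * c,
      b ^ e.length + b ^ (e.length + l + e.length) * K, ?_, fun u hu => ?_⟩
    · push_cast
      have e1 : (N + 1) * (e.length + l + e.length) =
        N * (e.length + l + e.length) + (e.length + l + e.length) := by ring
      rw [e1, pow_add _ (N * (e.length + l + e.length))]
      linear_combination (b : ℤ) ^ (e.length + l + e.length) * h0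
    · rw [pw_succ, Nat.ofDigits_append, Nat.ofDigits_append, Nat.ofDigits_append, h u hu]
      simp only [List.length_append, hu]
      ring

section blocks

variable {b Λ c K M : ℕ} {Bl : ℕ → List ℕ}

theorem flat_length (hl : ∀ n, (Bl n).length = Λ) (Y : List ℕ) :
    ((Y.map Bl).flatten).length = Y.length * Λ := by
  induction Y with
  | nil => simp
  | cons y Y ih => simp only [List.map_cons, List.flatten_cons, List.length_append, hl, ih,
      List.length_cons]; ring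

theorem flat_dig (hd : ∀ n, Dig b (Bl n)) (Y : List ℕ) : Dig b (Y.map Bl).flatten := by
  induction Y with
  | nil => simpa using dig_nil b
  | cons y Y ih => simpa using (hd y).append ih

theorem flat_val (hl : ∀ n, (Bl n).length = Λ) (hv : ∀ n < M, Nat.ofDigits b (Bl n) = c + K * n)
    (Y : List ℕ) (hY : ∀ y ∈ Y, y < M) :
    ((Nat.ofDigits b (Y.map Bl).flatten : ℕ) : ℤ) =
      ev ((b : ℤ) ^ Λ) (Y.map fun y : ℕ => ((c : ℤ) + (K : ℤ) * (y : ℤ))) := by
  induction Y with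
  | nil => simp [ev]
  | cons y Y ih =>
    rw [List.map_cons, List.flatten_cons, Nat.ofDigits_append, hl, hv y (hY y (by simp)),
      List.map_cons]
    simp only [ev]
    rw [← ih (fun z hz => hY z (by simp [hz]))]
    push_cast
    ring

theorem flat_comm {r : List ℕ → List ℕ → Prop} (hr : Cong r)
    (hc : ∀ x y, r (Bl x ++ Bl y) (Bl y ++ Bl x)) (x : ℕ) (Y : List ℕ) :
    r ((Y.map Bl).flatten ++ Bl x) (Bl x ++ (Y.map Bl).flatten) := by
  induction Y with
  | nil => simpa using hr.eqv.refl (Bl x)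
  | cons y Y ih =>
    rw [List.map_cons, List.flatten_cons]
    have h1 : r (Bl y ++ (Y.map Bl).flatten ++ Bl x) (Bl y ++ Bl x ++ (Y.map Bl).flatten) := by
      rw [List.append_assoc, List.append_assoc]
      exact hr.app (hr.eqv.refl _) ih
    have h2 : r (Bl y ++ Bl x ++ (Y.map Bl).flatten) (Bl x ++ (Bl y ++ (Y.map Bl).flatten)) := by
      rw [← List.append_assoc]
      exact hr.app (hc y x) (hr.eqv.refl _)
    exact hr.eqv.trans h1 h2

end blocks

theorem size_bound {b ε G g j : ℕ} (hb : 2 ≤ b) (hj : 1 ≤ j) (hg : g ≤ G) :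
    2 * (g * b ^ (ε * (j - 1))) * 2 ^ (2 * j - 2) * b ^ (2 * ε) ≤
      (b ^ (2 * ε + G + 3) + 1) ^ j := by
  obtain ⟨i, rfl⟩ : ∃ i, j = i + 1 := ⟨j - 1, by omega⟩
  have e1 : i + 1 - 1 = i := by omega
  have e2 : 2 * (i + 1) - 2 = 2 * i := by omega
  rw [e1, e2]
  have hbpos : 0 < b := by omega
  have h1 : (b ^ (2 * ε + G + 3)) ^ (i + 1) ≤ (b ^ (2 * ε + G + 3) + 1) ^ (i + 1) :=
    Nat.pow_le_pow_left (by omega) _
  refine le_trans ?_ h1
  have h2 : (b ^ (2 * ε + G + 3)) ^ (i + 1) =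
      b ^ (ε * i) * b ^ (ε * i) * b ^ (2 * ε) * b ^ (G * i) * b ^ G * b ^ (3 * i) * b ^ 3 := by
    rw [← pow_mul, ← pow_add, ← pow_add, ← pow_add, ← pow_add, ← pow_add, ← pow_add]
    congr 1
    ring
  rw [h2]
  have hg2 : g ≤ b ^ G := hg.trans ((Nat.lt_pow_self (by omega)).le)
  have h3 : 2 ^ (2 * i) ≤ b ^ (3 * i) := by
    calc 2 ^ (2 * i) ≤ 2 ^ (3 * i) := Nat.pow_le_pow_right (by omega) (by omega)
      _ ≤ b ^ (3 * i) := Nat.pow_le_pow_left hb _
  have h4 : 2 ≤ b ^ 3 := le_trans hb (Nat.le_self_pow (by omega) b)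
  have h5 : 1 ≤ b ^ (ε * i) := Nat.one_le_pow _ _ hbpos
  have h6 : 1 ≤ b ^ (G * i) := Nat.one_le_pow _ _ hbpos
  calc 2 * (g * b ^ (ε * i)) * 2 ^ (2 * i) * b ^ (2 * ε)
      = 1 * b ^ (ε * i) * b ^ (2 * ε) * 1 * g * 2 ^ (2 * i) * 2 := by ring
    _ ≤ b ^ (ε * i) * b ^ (ε * i) * b ^ (2 * ε) * b ^ (G * i) * b ^ G * b ^ (3 * i) * b ^ 3 := by
      gcongr

theorem core {b L m c K f M₀ d : ℕ} {Bl : ℕ → List ℕ} (hl : ∀ n, (Bl n).length = L)
    (hv : ∀ n < b ^ m, Nat.ofDigits b (Bl n) = c + K * n) (hM₀ : M₀ = f * 2 ^ d)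
    (hsize : 2 * M₀ < b ^ m) :
    ∃ Y : List ℕ, Y.length = d + 1 ∧
      ((Nat.ofDigits b (Bl M₀ ++ (Y.map Bl).flatten) : ℕ) : ℤ) =
        ((Nat.ofDigits b ((Y.map Bl).flatten ++ Bl M₀) : ℕ) : ℤ) +
          (K : ℤ) * f * ((b : ℤ) ^ L - 1) * ((b : ℤ) ^ L - 1) ^ d := by
  obtain ⟨p, hp1, hp2, hp3⟩ := exists_pow_list ((b : ℤ) ^ L) d
  have hf0 : (0 : ℤ) ≤ f := by positivity
  have hMz : (M₀ : ℤ) = f * 2 ^ d := by rw [hM₀]; push_cast; ring
  have hYnn : ∀ t ∈ p, 0 ≤ (M₀ : ℤ) + f * t ∧ (M₀ : ℤ) + f * t ≤ 2 * M₀ := by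
    intro t ht
    have h1 := abs_le.1 (hp2 t ht)
    have h2 := mul_le_mul_of_nonneg_left h1.1 hf0
    have h3 := mul_le_mul_of_nonneg_left h1.2 hf0
    constructor
    · rw [hMz]; linarith
    · rw [hMz]; linarith
  refine ⟨p.map fun t => ((M₀ : ℤ) + f * t).toNat, by rw [List.length_map, hp1], ?_⟩
  have hYlt : ∀ y ∈ p.map fun t => ((M₀ : ℤ) + f * t).toNat, y < b ^ m := by
    intro y hy
    rw [List.mem_map] at hy
    obtain ⟨t, ht, rfl⟩ := hy
    have := hYnn t ht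
    omega
  have hWv := flat_val hl hv (p.map fun t => ((M₀ : ℤ) + f * t).toNat) hYlt
  have hWl := flat_length hl (p.map fun t => ((M₀ : ℤ) + f * t).toNat)
  rw [List.length_map, hp1] at hWl
  have hmap : ((p.map fun t => ((M₀ : ℤ) + f * t).toNat).map fun y : ℕ =>
      ((c : ℤ) + (K : ℤ) * (y : ℤ))) =
      p.map fun t => ((c : ℤ) + K * M₀) + (K * f) * t := by
    rw [List.map_map]
    apply List.map_congr_left
    intro t ht
    have := (hYnn t ht).1
    simp only [Function.comp_apply]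
    rw [Int.toNat_of_nonneg this]
    ring
  rw [hmap] at hWv
  generalize ((p.map fun t => ((M₀ : ℤ) + f * t).toNat).map Bl).flatten = W at hWv hWl ⊢
  have h1 := ev_affine ((b : ℤ) ^ L) ((c : ℤ) + K * M₀) (K * f) p
  rw [← hWv, hp3, hp1] at h1
  rw [Nat.ofDigits_append, Nat.ofDigits_append, hWl, hl, hv M₀ (by omega)]
  push_cast at h1 ⊢
  have h2 : (b : ℤ) ^ ((d + 1) * L) = ((b : ℤ) ^ L) ^ (d + 1) := by
    rw [← pow_mul, mul_comm]
  rw [h2]
  linear_combination h1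

theorem algebra {b ε ℓ q j g d : ℕ} {B K f η C : ℤ} (hq : 1 ≤ q) (hj : 1 ≤ j)
    (hd : d = 2 * j - 2) (hf : f = g * (b : ℤ) ^ (ε * (j - 1)) * η)
    (hη : (q : ℤ) ^ j * η = (b : ℤ) ^ ℓ - 1)
    (hK : K * ((b : ℤ) ^ ℓ - 1) = (b : ℤ) ^ ε * (B - 1))
    (hC : C * q = (b : ℤ) ^ ε * (B - 1) ^ 2) :
    K * f * (B - 1) * (B - 1) ^ d = g * C ^ j := by
  obtain ⟨i, rfl⟩ : ∃ i, j = i + 1 := ⟨j - 1, by omega⟩
  have hqj : (q : ℤ) ^ (i + 1) ≠ 0 := by
    have : (0 : ℤ) < q := by exact_mod_cast hq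
    positivity
  apply mul_left_cancel₀ hqj
  have e1 : i + 1 - 1 = i := by omega
  have e2 : d = 2 * i := by omega
  rw [e1] at hf
  have hbe : (b : ℤ) ^ (ε * i) = ((b : ℤ) ^ ε) ^ i := pow_mul _ _ _
  calc (q : ℤ) ^ (i + 1) * (K * f * (B - 1) * (B - 1) ^ d)
      = (K * ((q : ℤ) ^ (i + 1) * η)) * (g * (b : ℤ) ^ (ε * i)) *
          ((B - 1) * (B - 1) ^ d) := by rw [hf]; ring
    _ = ((b : ℤ) ^ ε * (B - 1)) * (g * ((b : ℤ) ^ ε) ^ i) *
          ((B - 1) * (B - 1) ^ (2 * i)) := by rw [hη, hK, hbe, e2]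
    _ = g * ((b : ℤ) ^ ε * (B - 1) ^ 2) ^ (i + 1) := by
          rw [pow_succ ((b : ℤ) ^ ε * (B - 1) ^ 2) i, mul_pow, pow_mul (B - 1) 2 i]
          ring
    _ = g * (C * q) ^ (i + 1) := by rw [hC]
    _ = (q : ℤ) ^ (i + 1) * (g * C ^ (i + 1)) := by rw [mul_pow]; ring

/-- Equivalent words of one length, with top digit one, whose values differ by `g * c ^ j`. -/
theorem polyWords {b : ℕ} (hb : 2 ≤ b) {r : List ℕ → List ℕ → Prop} (hr : Cong r) {e : List ℕ}
    (he : Dig b e) {N : ℕ} (hN : 1 ≤ N)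
    (hc : ∀ u v : List ℕ, Dig b u → Dig b v →
      r (pw e N u ++ pw e N v) (pw e N v ++ pw e N u)) (k G M : ℕ) :
    ∃ c Λ : ℕ, M ≤ c ∧ 1 ≤ c ∧ 1 ≤ Λ ∧ ∀ j g : ℕ, 1 ≤ j → j ≤ k → g ≤ G →
      ∃ w w' : List ℕ, Dig b w ∧ Dig b w' ∧ w.length = Λ ∧ w'.length = Λ ∧
        w.getLast? = some 1 ∧ w'.getLast? = some 1 ∧ r w w' ∧
        Nat.ofDigits b w' = Nat.ofDigits b w + g * c ^ j := by
  have hb0 : 0 < b := by omega
  set ε := e.length with hε
  set q := b ^ (2 * ε + G + 3) + 1 with hq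
  have hcop : Nat.Coprime b (q ^ (k + 1)) := by
    apply Nat.Coprime.pow_right
    rw [hq]
    apply Nat.Coprime.symm
    have : Nat.Coprime (b ^ (2 * ε + G + 3) + 1) b := by
      obtain ⟨s, hs⟩ : ∃ s, b ^ (2 * ε + G + 3) = b * s := ⟨b ^ (2 * ε + G + 2), by
        rw [← pow_succ']⟩
      rw [hs, mul_comm b s, Nat.coprime_mul_right_add_left]
      exact Nat.coprime_one_left b
    exact this
  have hq1 : 1 ≤ q := by omega
  have hqpos : 0 < q ^ (k + 1) := by positivity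
  set ℓ := Nat.totient (q ^ (k + 1)) * (2 * ε + M + 1) with hℓ
  have htot : 1 ≤ Nat.totient (q ^ (k + 1)) := Nat.totient_pos.2 hqpos
  have hℓ1 : 2 * ε + M + 1 ≤ ℓ := by rw [hℓ]; exact Nat.le_mul_of_pos_left _ htot
  obtain ⟨m, hm⟩ : ∃ m, ℓ = ε + m + ε := ⟨ℓ - 2 * ε, by omega⟩
  have hdvd : q ^ (k + 1) ∣ b ^ ℓ - 1 := by
    have h1 : b ^ ℓ ≡ 1 [MOD q ^ (k + 1)] := by
      rw [hℓ, pow_mul]
      have := (Nat.ModEq.pow_totient hcop).pow (2 * ε + M + 1)
      rwa [one_pow] at this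
    exact (Nat.modEq_iff_dvd' (Nat.one_le_pow _ _ hb0)).1 h1.symm
  have hB1 : b ^ ℓ - 1 ∣ b ^ (N * ℓ) - 1 := by
    have := Nat.sub_dvd_pow_sub_pow (b ^ ℓ) 1 N
    rwa [one_pow, ← pow_mul, mul_comm ℓ N] at this
  obtain ⟨β₁, hβ⟩ : q ∣ b ^ (N * ℓ) - 1 := (dvd_trans (dvd_pow_self q (by omega)) hdvd).trans hB1
  have hℓb : ℓ < b ^ ℓ := Nat.lt_pow_self (by omega)
  have hBb : b ^ ℓ ≤ b ^ (N * ℓ) := Nat.pow_le_pow_right hb0 (Nat.le_mul_of_pos_left _ hN)
  have hβ1 : 1 ≤ β₁ := by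
    rcases Nat.eq_zero_or_pos β₁ with h | h
    · rw [h, mul_zero] at hβ
      omega
    · exact h
  have hBge : ℓ ≤ b ^ (N * ℓ) - 1 := by omega
  have hpe : 1 ≤ b ^ ε := Nat.one_le_pow _ _ hb0
  have hcge : ℓ ≤ b ^ ε * (b ^ (N * ℓ) - 1) * β₁ := by
    calc ℓ ≤ b ^ (N * ℓ) - 1 := hBge
      _ = 1 * (b ^ (N * ℓ) - 1) * 1 := by ring
      _ ≤ _ := by gcongr
  refine ⟨b ^ ε * (b ^ (N * ℓ) - 1) * β₁, 2 * k * (N * ℓ) + 1, by omega, by omega, by omega, ?_⟩
  intro j g hj hjk hgG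
  -- the coefficient
  obtain ⟨η, hη⟩ : q ^ j ∣ b ^ ℓ - 1 := (pow_dvd_pow q (by omega)).trans hdvd
  set d := 2 * j - 2 with hd
  set f := g * b ^ (ε * (j - 1)) * η with hf
  set M₀ := f * 2 ^ d with hM₀
  have hsize : 2 * M₀ < b ^ m := by
    have h1 := size_bound (ε := ε) hb hj hgG
    rw [← hq] at h1
    have h2 : 2 * M₀ * b ^ (2 * ε) ≤ q ^ j * η := by
      calc 2 * M₀ * b ^ (2 * ε) = 2 * (g * b ^ (ε * (j - 1))) * 2 ^ (2 * j - 2) * b ^ (2 * ε) * η := by
            rw [hM₀, hf, hd]; ring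
        _ ≤ q ^ j * η := Nat.mul_le_mul_right _ h1
    have h3 : q ^ j * η < b ^ (2 * ε) * b ^ m := by
      rw [← hη, ← pow_add, show 2 * ε + m = ℓ by omega]
      omega
    have h4 : 2 * M₀ * b ^ (2 * ε) < b ^ m * b ^ (2 * ε) := by
      calc 2 * M₀ * b ^ (2 * ε) ≤ q ^ j * η := h2
        _ < _ := by rw [mul_comm (b ^ m)]; exact h3
    exact Nat.lt_of_mul_lt_mul_right h4
  -- blocks
  obtain ⟨c₁, K, hK, hv⟩ := pw_val' (b := b) e m N
  rw [← hε, ← hm] at hK
  set Bl : ℕ → List ℕ := fun n => pw e N (pad b m n) with hBl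
  have hBlen : ∀ n, (Bl n).length = N * ℓ := fun n => by
    simp only [hBl]; rw [pw_length, pad_length, ← hε, ← hm]
  have hBd : ∀ n, Dig b (Bl n) := fun n => pw_dig he (pad_dig hb0 _ _) N
  have hBv : ∀ n < b ^ m, Nat.ofDigits b (Bl n) = c₁ + K * n := by
    intro n hn
    simp only [hBl]
    rw [hv _ (pad_length _ _ _), ofDigits_pad _ _ hn]
  have hBc : ∀ x y, r (Bl x ++ Bl y) (Bl y ++ Bl x) := fun x y =>
    hc _ _ (pad_dig hb0 _ _) (pad_dig hb0 _ _)
  obtain ⟨Y, hYl, hYv⟩ := core hBlen hBv hM₀ hsize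
  have hWl : ((Y.map Bl).flatten).length = (d + 1) * (N * ℓ) := by rw [flat_length hBlen, hYl]
  -- the two cores
  have hcore := flat_comm hr hBc M₀ Y
  have hWd := flat_dig hBd Y
  have hl1 : ((Y.map Bl).flatten ++ Bl M₀).length = 2 * j * (N * ℓ) := by
    rw [List.length_append, hWl, hBlen]
    have : d + 1 + 1 = 2 * j := by omega
    calc (d + 1) * (N * ℓ) + N * ℓ = (d + 1 + 1) * (N * ℓ) := by ring
      _ = _ := by rw [this]
  have hl2 : (Bl M₀ ++ (Y.map Bl).flatten).length = 2 * j * (N * ℓ) := by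
    rw [List.length_append, add_comm, ← List.length_append, hl1]
  have hcz : (((b ^ ε * (b ^ (N * ℓ) - 1) * β₁ : ℕ)) : ℤ) * q =
      (b : ℤ) ^ ε * ((b : ℤ) ^ (N * ℓ) - 1) ^ 2 := by
    have h1 : ((b ^ (N * ℓ) - 1 : ℕ) : ℤ) = (b : ℤ) ^ (N * ℓ) - 1 := by
      rw [Nat.cast_sub (Nat.one_le_pow _ _ hb0)]
      push_cast
      ring
    have h2 : (q : ℤ) * β₁ = ((b ^ (N * ℓ) - 1 : ℕ) : ℤ) := by
      rw [hβ]
      push_cast
      ring
    rw [Nat.cast_mul, Nat.cast_mul, ← h1, Nat.cast_pow]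
    linear_combination ((b : ℤ) ^ ε * ((b ^ (N * ℓ) - 1 : ℕ) : ℤ)) * h2
  have hηz : (q : ℤ) ^ j * η = (b : ℤ) ^ ℓ - 1 := by
    have h1 : ((b ^ ℓ - 1 : ℕ) : ℤ) = (b : ℤ) ^ ℓ - 1 := by
      rw [Nat.cast_sub (Nat.one_le_pow _ _ hb0)]
      push_cast
      ring
    rw [← h1, hη, Nat.cast_mul, Nat.cast_pow]
  have hfz : (f : ℤ) = g * (b : ℤ) ^ (ε * (j - 1)) * η := by
    rw [hf, Nat.cast_mul, Nat.cast_mul, Nat.cast_pow]
  have halg := algebra hq1 hj hd hfz hηz hK hcz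
  rw [halg] at hYv
  have hval : Nat.ofDigits b (Bl M₀ ++ (Y.map Bl).flatten) =
      Nat.ofDigits b ((Y.map Bl).flatten ++ Bl M₀) +
        g * (b ^ ε * (b ^ (N * ℓ) - 1) * β₁) ^ j := by
    apply Nat.cast_injective (R := ℤ)
    rw [hYv, Nat.cast_add, Nat.cast_mul g, Nat.cast_pow]
  -- padding
  set R := (2 * k - 2 * j) * (N * ℓ) with hR
  have hRl : 2 * j * (N * ℓ) + R = 2 * k * (N * ℓ) := by
    rw [hR, ← add_mul]
    congr 1
    omega
  set tail := List.replicate R 0 ++ [1] with htail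
  have htd : Dig b tail := by
    intro x hx
    rw [htail, List.mem_append] at hx
    rcases hx with hx | hx
    · rw [List.eq_of_mem_replicate hx]; exact hb0
    · rw [List.mem_singleton.1 hx]; omega
  have htl : tail.length = R + 1 := by simp [htail]
  have hlast : ∀ x : List ℕ, (x ++ tail).getLast? = some 1 := by
    intro x
    rw [htail, ← List.append_assoc]
    simp
  refine ⟨((Y.map Bl).flatten ++ Bl M₀) ++ tail, (Bl M₀ ++ (Y.map Bl).flatten) ++ tail,
    (hWd.append (hBd _)).append htd, ((hBd _).append hWd).append htd, ?_, ?_, hlast _, hlast _,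
    hr.app hcore (hr.eqv.refl _), ?_⟩
  · rw [List.length_append, hl1, htl]; omega
  · rw [List.length_append, hl2, htl]; omega
  · rw [Nat.ofDigits_append (l1 := Bl M₀ ++ (Y.map Bl).flatten),
      Nat.ofDigits_append (l1 := (Y.map Bl).flatten ++ Bl M₀), hl1, hl2, hval]
    ring

end Vale.Agent.P042.H886
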